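import Mathlib

/-!
Combinatorial core of the two-level construction for sets of integers without
8-term arithmetic progressions.
-/

namespace Vale.Agent.Lib.P057

open Finset

/-- Two digit vectors with digits below the base and equal value are equal. -/
lemma digits_eq {n b : ℕ} {f g : Fin n → ℕ} (hf : ∀ i, f i < b) (hg : ∀ i, g i < b)
    (h : Behrend.map b f = Behrend.map b g) : f = g :=
  Behrend.map_injOn hf hg h

/-- A digit vector with digits below the base has value below the power of the base. -/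
lemma map_lt_pow {b : ℕ} : ∀ {n : ℕ} {f : Fin n → ℕ}, (∀ i, f i < b) →
    Behrend.map b f < b ^ n := by
  intro n
  induction n with
  | zero => intro f _; simp
  | succ n ih =>
    intro f hf
    rw [Behrend.map_succ']
    have h1 : Behrend.map b (f ∘ Fin.succ) < b ^ n := ih (fun i => hf i.succ)
    have h2 := hf 0
    have h3 : (Behrend.map b (f ∘ Fin.succ) + 1) * b ≤ b ^ n * b :=
      Nat.mul_le_mul_right _ h1
    rw [pow_succ]
    nlinarith

/-- The identity at the heart of the last level: given the recurrences, the squared sums being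
equal forces the relation coordinatewise. -/
lemma level2_core {n : ℕ} (u0 u1 u2 u3 u4 u5 u6 u7 : Fin n → ℤ) (s : ℤ)
    (h0 : ∑ i, u0 i ^ 2 = s) (h1 : ∑ i, u1 i ^ 2 = s) (h2 : ∑ i, u2 i ^ 2 = s)
    (h3 : ∑ i, u3 i ^ 2 = s) (h4 : ∑ i, u4 i ^ 2 = s) (h5 : ∑ i, u5 i ^ 2 = s)
    (h6 : ∑ i, u6 i ^ 2 = s) (h7 : ∑ i, u7 i ^ 2 = s)
    (r0 : ∀ i, u0 i + 2 * u3 i = 2 * u1 i + u4 i)
    (r1 : ∀ i, u1 i + 2 * u4 i = 2 * u2 i + u5 i)
    (r2 : ∀ i, u2 i + 2 * u5 i = 2 * u3 i + u6 i)
    (r3 : ∀ i, u3 i + 2 * u6 i = 2 * u4 i + u7 i) :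
    u2 = u0 ∧ u4 = u0 := by
  -- first functional
  have key : ∑ i, 12 * (u0 i - u1 i - u2 i + u3 i) ^ 2 = 0 := by
    have e : ∀ i, 12 * (u0 i - u1 i - u2 i + u3 i) ^ 2 =
        u0 i ^ 2 - u1 i ^ 2 - 3 * u2 i ^ 2 + 3 * u3 i ^ 2 + 3 * u4 i ^ 2 - 3 * u5 i ^ 2
          - u6 i ^ 2 + u7 i ^ 2 := by
      intro i
      have a4 : u4 i = u0 i + 2 * u3 i - 2 * u1 i := by linarith [r0 i]
      have a5 : u5 i = u1 i + 2 * u4 i - 2 * u2 i := by linarith [r1 i]
      have a6 : u6 i = u2 i + 2 * u5 i - 2 * u3 i := by linarith [r2 i]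
      have a7 : u7 i = u3 i + 2 * u6 i - 2 * u4 i := by linarith [r3 i]
      rw [a7, a6, a5, a4]
      ring
    simp_rw [e]
    simp only [sum_add_distrib, sum_sub_distrib, ← mul_sum, h0, h1, h2, h3, h4, h5, h6, h7]
    ring
  have z : ∀ i, u0 i - u1 i - u2 i + u3 i = 0 := by
    intro i
    have := (sum_eq_zero_iff_of_nonneg
      (fun i _ => by positivity)).1 key i (mem_univ i)
    have h' : (u0 i - u1 i - u2 i + u3 i) ^ 2 = 0 := by linarith
    exact pow_eq_zero_iff (two_ne_zero) |>.1 h'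
  have a4' : ∀ i, u4 i = 2 * u2 i - u0 i := by
    intro i
    have := r0 i
    have := z i
    linarith
  have key2 : ∑ i, 2 * (u2 i - u0 i) ^ 2 = 0 := by
    have e : ∀ i, 2 * (u2 i - u0 i) ^ 2 = u0 i ^ 2 - 2 * u2 i ^ 2 + u4 i ^ 2 := by
      intro i
      rw [a4' i]
      ring
    simp_rw [e]
    simp only [sum_add_distrib, sum_sub_distrib, ← mul_sum, h0, h2, h4]
    ring
  have z2 : ∀ i, u2 i = u0 i := by
    intro i
    have := (sum_eq_zero_iff_of_nonneg
      (fun i _ => by positivity)).1 key2 i (mem_univ i)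
    have h' : (u2 i - u0 i) ^ 2 = 0 := by linarith
    have := pow_eq_zero_iff (two_ne_zero) |>.1 h'
    linarith
  refine ⟨funext z2, funext fun i => ?_⟩
  rw [a4' i, z2 i]
  ring

/-- Digit recurrences for the top level: an arithmetic progression of values with digits
below half the base is an arithmetic progression of digits. -/
lemma level1_digits {n M : ℕ} {x y z : Fin n → ℕ}
    (hx : ∀ i, x i < M) (hy : ∀ i, y i < M) (hz : ∀ i, z i < M)
    (h : Behrend.map (2 * M) x + Behrend.map (2 * M) z = 2 * Behrend.map (2 * M) y) :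
    ∀ i, x i + z i = 2 * y i := by
  have e : x + z = y + y := by
    apply digits_eq (b := 2 * M)
    · intro i
      have := hx i
      have := hz i
      simp only [Pi.add_apply]
      omega
    · intro i
      have := hy i
      simp only [Pi.add_apply]
      omega
    · rw [map_add, map_add]
      omega
  intro i
  have := congrFun e i
  simp only [Pi.add_apply] at this
  omega

/-- Digit recurrences for the last level: digits below a third of the base. -/
lemma level2_digits {n M : ℕ} {p q r s : Fin n → ℕ}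
    (hp : ∀ i, p i < M) (hq : ∀ i, q i < M) (hr : ∀ i, r i < M) (hs : ∀ i, s i < M)
    (h : Behrend.map (3 * M) p + 2 * Behrend.map (3 * M) s =
      2 * Behrend.map (3 * M) q + Behrend.map (3 * M) r) :
    ∀ i, p i + 2 * s i = 2 * q i + r i := by
  have e : p + (s + s) = (q + q) + r := by
    apply digits_eq (b := 3 * M)
    · intro i
      have := hp i
      have := hs i
      simp only [Pi.add_apply]
      omega
    · intro i
      have := hq i
      have := hr i
      simp only [Pi.add_apply]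
      omega
    · simp only [map_add]
      omega
  intro i
  have := congrFun e i
  simp only [Pi.add_apply] at this
  omega

/-- The no-progression argument: values of the top level in arithmetic progression, linked to
points of a sphere of the last level, have common difference zero. -/
theorem no_ap_core {d₁ d₂ M₁ M₂ t T s : ℕ}
    (x : ℕ → Fin d₁ → ℕ) (u : ℕ → Fin d₂ → ℕ)
    (hx : ∀ j, j < 8 → ∀ i, x j i < M₁) (hu : ∀ j, j < 8 → ∀ i, u j i < M₂)
    (hs : ∀ j, j < 8 → ∑ i, u j i ^ 2 = s)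
    (hlink : ∀ j, j < 8 → Behrend.map (3 * M₂) (u j) + T = ∑ i, x j i ^ 2 + t)
    {a d : ℕ} (hap : ∀ j, j < 8 → Behrend.map (2 * M₁) (x j) = a + j * d) : d = 0 := by
  -- digit recurrences at the top level
  have xr : ∀ j, j + 2 < 8 → ∀ i, x j i + x (j + 2) i = 2 * x (j + 1) i := by
    intro j hj
    apply level1_digits (M := M₁) (hx j (by omega)) (hx _ (by omega)) (hx _ hj)
    rw [hap j (by omega), hap (j + 1) (by omega), hap (j + 2) hj]
    ring
  -- squared sums at the top level in integers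
  set Q : ℕ → ℤ := fun j => ∑ i, (x j i : ℤ) ^ 2 with hQ
  -- the link in integers
  have link : ∀ j, j < 8 → (Behrend.map (3 * M₂) (u j) : ℤ) + T = Q j + t := by
    intro j hj
    have := hlink j hj
    have h2 : ((Behrend.map (3 * M₂) (u j) + T : ℕ) : ℤ) = ((∑ i, x j i ^ 2 + t : ℕ) : ℤ) := by
      rw [this]
    push_cast at h2
    simpa [hQ] using h2
  have Qr : ∀ j, j + 4 < 8 → Q j + 2 * Q (j + 3) = 2 * Q (j + 1) + Q (j + 4) := by
    intro j hj
    simp only [hQ, mul_sum, ← sum_add_distrib]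
    refine sum_congr rfl fun i _ => ?_
    have e0 : (x (j + 2) i : ℤ) = 2 * x (j + 1) i - x j i := by
      have := xr j (by omega) i
      have : ((x j i + x (j + 2) i : ℕ) : ℤ) = ((2 * x (j + 1) i : ℕ) : ℤ) := by rw [this]
      push_cast at this
      linarith
    have e1 : (x (j + 3) i : ℤ) = 2 * x (j + 2) i - x (j + 1) i := by
      have := xr (j + 1) (by omega) i
      have : ((x (j + 1) i + x (j + 3) i : ℕ) : ℤ) = ((2 * x (j + 2) i : ℕ) : ℤ) := by rw [this]
      push_cast at this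
      linarith
    have e2 : (x (j + 4) i : ℤ) = 2 * x (j + 3) i - x (j + 2) i := by
      have := xr (j + 2) (by omega) i
      have : ((x (j + 2) i + x (j + 4) i : ℕ) : ℤ) = ((2 * x (j + 3) i : ℕ) : ℤ) := by rw [this]
      push_cast at this
      linarith
    rw [e2, e1, e0]
    ring
  -- digit recurrences at the last level
  have ur : ∀ j, j + 4 < 8 → ∀ i, u j i + 2 * u (j + 3) i = 2 * u (j + 1) i + u (j + 4) i := by
    intro j hj
    apply level2_digits (M := M₂) (hu j (by omega)) (hu _ (by omega)) (hu _ hj) (hu _ (by omega))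
    have l0 := link j (by omega)
    have l1 := link (j + 1) (by omega)
    have l3 := link (j + 3) (by omega)
    have l4 := link (j + 4) hj
    have q := Qr j hj
    have : (Behrend.map (3 * M₂) (u j) : ℤ) + 2 * Behrend.map (3 * M₂) (u (j + 3)) =
        2 * Behrend.map (3 * M₂) (u (j + 1)) + Behrend.map (3 * M₂) (u (j + 4)) := by
      linarith
    exact_mod_cast this
  -- apply the sphere argument
  have zr : ∀ j, j + 4 < 8 → ∀ i, (u j i : ℤ) + 2 * u (j + 3) i = 2 * u (j + 1) i + u (j + 4) i := by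
    intro j hj i
    exact_mod_cast ur j hj i
  have zs : ∀ j, j < 8 → ∑ i, (u j i : ℤ) ^ 2 = s := by
    intro j hj
    exact_mod_cast hs j hj
  obtain ⟨e2, e4⟩ := level2_core (fun i => (u 0 i : ℤ)) (fun i => (u 1 i : ℤ)) (fun i => (u 2 i : ℤ))
    (fun i => (u 3 i : ℤ)) (fun i => (u 4 i : ℤ)) (fun i => (u 5 i : ℤ)) (fun i => (u 6 i : ℤ))
    (fun i => (u 7 i : ℤ)) s (zs 0 (by omega)) (zs 1 (by omega)) (zs 2 (by omega))
    (zs 3 (by omega)) (zs 4 (by omega)) (zs 5 (by omega)) (zs 6 (by omega)) (zs 7 (by omega))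
    (zr 0 (by omega)) (zr 1 (by omega)) (zr 2 (by omega)) (zr 3 (by omega))
  have e2' : u 2 = u 0 := by
    funext i
    have := congrFun e2 i
    simpa using this
  have e4' : u 4 = u 0 := by
    funext i
    have := congrFun e4 i
    simpa using this
  -- hence the squared sums at the top level agree
  have Q20 : Q 2 = Q 0 := by
    have l0 := link 0 (by omega)
    have l2 := link 2 (by omega)
    rw [e2'] at l2
    linarith
  have Q40 : Q 4 = Q 0 := by
    have l0 := link 0 (by omega)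
    have l4 := link 4 (by omega)
    rw [e4'] at l4
    linarith
  have key : ∑ i, 2 * ((x 2 i : ℤ) - x 0 i) ^ 2 = 0 := by
    have e : ∀ i, 2 * ((x 2 i : ℤ) - x 0 i) ^ 2 =
        (x 0 i : ℤ) ^ 2 - 2 * (x 2 i : ℤ) ^ 2 + (x 4 i : ℤ) ^ 2 := by
      intro i
      have r0 : (x 0 i : ℤ) + x 2 i = 2 * x 1 i := by exact_mod_cast xr 0 (by omega) i
      have r1 : (x 1 i : ℤ) + x 3 i = 2 * x 2 i := by exact_mod_cast xr 1 (by omega) i
      have r2 : (x 2 i : ℤ) + x 4 i = 2 * x 3 i := by exact_mod_cast xr 2 (by omega) i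
      have e4 : (x 4 i : ℤ) = 2 * x 2 i - x 0 i := by linarith
      rw [e4]
      ring
    simp_rw [e]
    simp only [sum_add_distrib, sum_sub_distrib, ← mul_sum]
    have q0 : ∑ i, (x 0 i : ℤ) ^ 2 = Q 0 := rfl
    have q2 : ∑ i, (x 2 i : ℤ) ^ 2 = Q 2 := rfl
    have q4 : ∑ i, (x 4 i : ℤ) ^ 2 = Q 4 := rfl
    rw [q0, q2, q4, Q20, Q40]
    ring
  have z : x 2 = x 0 := by
    funext i
    have := (sum_eq_zero_iff_of_nonneg
      (fun i _ => by positivity)).1 key i (mem_univ i)
    have h' : ((x 2 i : ℤ) - x 0 i) ^ 2 = 0 := by linarith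
    have h'' := pow_eq_zero_iff (two_ne_zero) |>.1 h'
    have : (x 2 i : ℤ) = x 0 i := by linarith
    exact_mod_cast this
  have a0 := hap 0 (by omega)
  have a2 := hap 2 (by omega)
  rw [z] at a2
  omega

/-- The main construction with explicit parameters. -/
theorem exists_set (d₁ d₂ M₁ M₂ : ℕ) (hM₂ : 0 < M₂) (hT : d₁ * M₁ ^ 2 ≤ (3 * M₂) ^ d₂) :
    ∃ A : Finset ℕ, A ⊆ Icc 1 ((2 * M₁) ^ d₁) ∧ (∀ a d : ℕ, 0 < d → ¬ ∀ i, i < 8 → a + i * d ∈ A) ∧
      M₁ ^ d₁ ≤ A.card * (2 * 3 ^ d₂ * (d₂ * M₂ ^ 2 + 1)) := by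
  classical
  set T := d₁ * M₁ ^ 2 with hTdef
  set W := (3 * M₂) ^ d₂ with hW
  have hWpos : 0 < W := by positivity
  obtain ⟨s, -, hs⟩ := Behrend.exists_large_sphere_aux d₂ M₂
  set U := Behrend.sphere d₂ M₂ s with hU
  set X := Behrend.box d₁ M₁ with hX
  have hUcard : M₂ ^ d₂ ≤ U.card * (d₂ * M₂ ^ 2 + 1) := by
    have h1 : ((d₂ * (M₂ - 1) ^ 2 : ℕ) : ℝ) + 1 > 0 := by positivity
    rw [div_le_iff₀ h1] at hs
    have h2 : (M₂ ^ d₂ : ℕ) ≤ U.card * (d₂ * (M₂ - 1) ^ 2 + 1) := by
      exact_mod_cast hs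
    refine h2.trans (Nat.mul_le_mul_left _ ?_)
    have : (M₂ - 1) ^ 2 ≤ M₂ ^ 2 := Nat.pow_le_pow_left (by omega) 2
    have := Nat.mul_le_mul_left d₂ this
    omega
  -- facts on the quadratic form
  have hQ : ∀ x ∈ X, ∑ i, x i ^ 2 ≤ T := by
    intro x hx
    have hx' := Behrend.mem_box.1 hx
    calc ∑ i, x i ^ 2 ≤ ∑ _i : Fin d₁, M₁ ^ 2 :=
          sum_le_sum fun i _ => Nat.pow_le_pow_left (hx' i).le 2
      _ = T := by simp [hTdef]
  -- the map to shifts
  let τ : (Fin d₁ → ℕ) × (Fin d₂ → ℕ) → ℕ := fun p =>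
    Behrend.map (3 * M₂) p.2 + T - ∑ i, p.1 i ^ 2
  have hmaps : ∀ p ∈ X ×ˢ U, τ p ∈ range (W + T) := by
    intro p hp
    have h1 : Behrend.map (3 * M₂) p.2 < W := by
      apply map_lt_pow
      intro i
      have := Behrend.mem_box.1 (Behrend.sphere_subset_box (mem_product.1 hp).2) i
      omega
    rw [mem_range]
    have : τ p ≤ Behrend.map (3 * M₂) p.2 + T := Nat.sub_le _ _
    omega
  have hne : (range (W + T)).Nonempty := by
    rw [nonempty_range_iff]
    omega
  have hcard : (range (W + T)).card • (((X ×ˢ U).card : ℝ) / ((W + T : ℕ) : ℝ)) ≤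
      ((X ×ˢ U).card : ℝ) := by
    rw [card_range, nsmul_eq_mul]
    have : ((W + T : ℕ) : ℝ) ≠ 0 := by
      have : 0 < W + T := by omega
      positivity
    rw [mul_div_cancel₀ _ this]
  obtain ⟨t, -, ht⟩ := exists_le_card_fiber_of_nsmul_le_card_of_maps_to hmaps hne hcard
  set F := (X ×ˢ U).filter fun p => τ p = t with hF
  have hF' : (X.card * U.card : ℕ) ≤ F.card * (W + T) := by
    have hpos : ((W + T : ℕ) : ℝ) > 0 := by
      have : 0 < W + T := by omega
      positivity
    rw [div_le_iff₀ hpos] at ht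
    rw [card_product] at ht
    exact_mod_cast ht
  -- the projection is injective on the fiber
  have hinj : Set.InjOn Prod.fst (F : Set ((Fin d₁ → ℕ) × (Fin d₂ → ℕ))) := by
    rintro ⟨x, u⟩ hp ⟨x', u'⟩ hp' hxx
    simp only at hxx
    subst hxx
    have hp1 := mem_filter.1 (mem_coe.1 hp)
    have hp2 := mem_filter.1 (mem_coe.1 hp')
    have hxX : x ∈ X := (mem_product.1 hp1.1).1
    have hQx := hQ x hxX
    have e1 : Behrend.map (3 * M₂) u = Behrend.map (3 * M₂) u' := by
      have e1 := hp1.2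
      have e2 := hp2.2
      simp only [τ] at e1 e2
      omega
    have : u = u' := by
      apply digits_eq (b := 3 * M₂) _ _ e1
      · intro i
        have : u i < M₂ := Behrend.mem_box.1 (Behrend.sphere_subset_box (mem_product.1 hp1.1).2) i
        omega
      · intro i
        have : u' i < M₂ := Behrend.mem_box.1 (Behrend.sphere_subset_box (mem_product.1 hp2.1).2) i
        omega
    rw [this]
  -- the set
  set Xt := F.image Prod.fst with hXt
  have hXtcard : Xt.card = F.card := card_image_of_injOn hinj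
  have hXtsub : ∀ x ∈ Xt, x ∈ X := by
    intro x hx
    obtain ⟨p, hp, rfl⟩ := mem_image.1 hx
    exact (mem_product.1 (mem_filter.1 hp).1).1
  let φ : (Fin d₁ → ℕ) → ℕ := fun x => Behrend.map (2 * M₁) x + 1
  have hφinj : Set.InjOn φ (Xt : Set (Fin d₁ → ℕ)) := by
    intro x hx y hy hxy
    have hx' := Behrend.mem_box.1 (hXtsub x hx)
    have hy' := Behrend.mem_box.1 (hXtsub y hy)
    apply digits_eq (b := 2 * M₁)
    · intro i
      have := hx' i
      omega
    · intro i
      have := hy' i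
      omega
    · simpa [φ] using hxy
  refine ⟨Xt.image φ, ?_, ?_, ?_⟩
  · intro y hy
    obtain ⟨x, hx, rfl⟩ := mem_image.1 hy
    have hx' := Behrend.mem_box.1 (hXtsub x hx)
    have : Behrend.map (2 * M₁) x < (2 * M₁) ^ d₁ := by
      apply map_lt_pow
      intro i
      have := hx' i
      omega
    rw [mem_Icc]
    simp only [φ]
    omega
  · intro a d hd hap
    have hmem : ∀ i, i < 8 → ∃ x, ∃ u, x ∈ X ∧ u ∈ U ∧ τ (x, u) = t ∧
        Behrend.map (2 * M₁) x + 1 = a + i * d := by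
      intro i hi
      obtain ⟨x, hx, hxa⟩ := mem_image.1 (hap i hi)
      obtain ⟨p, hp, rfl⟩ := mem_image.1 hx
      have hp1 := mem_filter.1 hp
      exact ⟨p.1, p.2, (mem_product.1 hp1.1).1, (mem_product.1 hp1.1).2, hp1.2, hxa⟩
    have hex : ∀ i : ℕ, ∃ x : Fin d₁ → ℕ, ∃ u : Fin d₂ → ℕ, i < 8 → (x ∈ X ∧ u ∈ U ∧ τ (x, u) = t ∧
        Behrend.map (2 * M₁) x + 1 = a + i * d) := by
      intro i
      by_cases hi : i < 8
      · obtain ⟨x, u, h⟩ := hmem i hi
        exact ⟨x, u, fun _ => h⟩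
      · exact ⟨0, 0, fun h => absurd h hi⟩
    choose x u h using hex
    have ha : 1 ≤ a := by
      have := (h 0 (by omega)).2.2.2
      omega
    have : d = 0 := by
      refine no_ap_core (d₁ := d₁) (d₂ := d₂) (M₁ := M₁) (M₂ := M₂) (t := t) (T := T) (s := s) x u
        (a := a - 1) ?_ ?_ ?_ ?_ ?_
      · intro j hj i
        exact Behrend.mem_box.1 (h j hj).1 i
      · intro j hj i
        exact Behrend.mem_box.1 (Behrend.sphere_subset_box (h j hj).2.1) i
      · intro j hj
        exact (mem_filter.1 (h j hj).2.1).2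
      · intro j hj
        have h1 := (h j hj).2.2.1
        have h2 := hQ _ (h j hj).1
        simp only [τ] at h1
        omega
      · intro j hj
        have h1 := (h j hj).2.2.2
        omega
    omega
  · rw [card_image_of_injOn hφinj, hXtcard]
    have hXcard : X.card = M₁ ^ d₁ := Behrend.card_box
    have hW2 : W = 3 ^ d₂ * M₂ ^ d₂ := by rw [hW, mul_pow]
    have hM : 0 < M₂ ^ d₂ := by positivity
    apply Nat.le_of_mul_le_mul_right _ hM
    calc M₁ ^ d₁ * M₂ ^ d₂ ≤ X.card * (U.card * (d₂ * M₂ ^ 2 + 1)) := by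
          rw [hXcard]
          exact Nat.mul_le_mul_left _ hUcard
      _ = (X.card * U.card) * (d₂ * M₂ ^ 2 + 1) := by ring
      _ ≤ (F.card * (W + T)) * (d₂ * M₂ ^ 2 + 1) := Nat.mul_le_mul_right _ hF'
      _ ≤ (F.card * (2 * W)) * (d₂ * M₂ ^ 2 + 1) := by
          apply Nat.mul_le_mul_right
          apply Nat.mul_le_mul_left
          omega
      _ = F.card * (2 * 3 ^ d₂ * (d₂ * M₂ ^ 2 + 1)) * M₂ ^ d₂ := by
          rw [hW2]
          ring

end Vale.Agent.Lib.P057
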