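import Mathlib
import Vale.Agent.Lib.P057.Core8

/-!
Choice of parameters in the two-level construction for sets without 8-term progressions.
-/

namespace Vale.Agent.Lib.P057

open Filter Real Asymptotics

lemma ev_quad_le_exp (A B C δ : ℝ) (hδ : 0 < δ) :
    ∀ᶠ t : ℝ in atTop, A * t ^ 2 + B * t + C ≤ exp (δ * t) := by
  have h2 := isLittleO_pow_exp_pos_mul_atTop (k := 2) hδ
  have h1 := isLittleO_pow_exp_pos_mul_atTop (k := 1) hδ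
  have h0 := isLittleO_pow_exp_pos_mul_atTop (k := 0) hδ
  have h := ((h2.const_mul_left A).add (h1.const_mul_left B)).add (h0.const_mul_left C)
  filter_upwards [h.bound one_pos] with t ht
  simp only [pow_one, pow_zero, mul_one, one_mul, Real.norm_eq_abs, abs_exp] at ht
  exact (le_abs_self _).trans ht

lemma pow_eq_exp {x : ℝ} (hx : 0 < x) (n : ℕ) : x ^ n = exp (n * log x) := by
  rw [Real.exp_nat_mul, Real.exp_log hx]

/-- Lower bound for the number of points of the first level. -/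
lemma first_level_count {ρ N : ℝ} {d₁ M₁ : ℕ} (hρpos : 0 < ρ) (hd₁2 : (2 : ℝ) ≤ d₁)
    (hρbig : 2 * (d₁ : ℝ) ^ 2 ≤ ρ) (hρpow : ρ ^ d₁ = N) (hM₁b : ρ / 2 - 1 < M₁) :
    N / (2 * 2 ^ d₁) ≤ (M₁ : ℝ) ^ d₁ := by
  have hd₁pos : (0 : ℝ) < d₁ := by linarith
  have hd2 : (0 : ℝ) < (d₁ : ℝ) ^ 2 := by positivity
  have hfac : (ρ / 2) * (1 + (-(1 / (d₁ : ℝ) ^ 2))) ≤ M₁ := by
    have : (ρ / 2) * (1 / (d₁ : ℝ) ^ 2) ≥ 1 := by
      rw [ge_iff_le, mul_one_div, le_div_iff₀ hd2]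
      linarith
    nlinarith
  have hle : 1 / (d₁ : ℝ) ^ 2 ≤ 1 := by
    rw [div_le_one hd2]
    nlinarith
  have hnn : 0 ≤ 1 + (-(1 / (d₁ : ℝ) ^ 2)) := by linarith
  have hpow : ((ρ / 2) * (1 + (-(1 / (d₁ : ℝ) ^ 2)))) ^ d₁ ≤ (M₁ : ℝ) ^ d₁ :=
    pow_le_pow_left₀ (by positivity) hfac _
  have hbern : 1 + (d₁ : ℝ) * (-(1 / (d₁ : ℝ) ^ 2)) ≤ (1 + (-(1 / (d₁ : ℝ) ^ 2))) ^ d₁ := by
    apply one_add_mul_le_pow
    linarith
  have hhalf : (1 / 2 : ℝ) ≤ 1 + (d₁ : ℝ) * (-(1 / (d₁ : ℝ) ^ 2)) := by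
    have : (d₁ : ℝ) * (-(1 / (d₁ : ℝ) ^ 2)) = -(1 / (d₁ : ℝ)) := by
      field_simp
    rw [this]
    have : 1 / (d₁ : ℝ) ≤ 1 / 2 := by
      apply one_div_le_one_div_of_le (by norm_num) hd₁2
    linarith
  have hexp : (ρ / 2) ^ d₁ = N / 2 ^ d₁ := by
    rw [div_pow, hρpow]
  have hNnn : 0 ≤ N := by rw [← hρpow]; positivity
  calc N / (2 * 2 ^ d₁) = N / 2 ^ d₁ * (1 / 2) := by
        field_simp
    _ ≤ (ρ / 2) ^ d₁ * (1 + (-(1 / (d₁ : ℝ) ^ 2))) ^ d₁ := by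
        rw [hexp]
        apply mul_le_mul_of_nonneg_left (hhalf.trans hbern) (by positivity)
    _ = ((ρ / 2) * (1 + (-(1 / (d₁ : ℝ) ^ 2)))) ^ d₁ := (mul_pow _ _ _).symm
    _ ≤ _ := hpow

/-- The size hypothesis of the construction. -/
lemma size_hyp {α β κ ρ t : ℝ} {d₁ d₂ M₁ M₂ : ℕ} (ht0 : 0 < t) (hαpos : 0 < α) (hβpos : 0 < β)
    (hκdef : κ = 2 * t / (α * β)) (hd₁a : α * t ≤ d₁) (hd₁b : (d₁ : ℝ) < α * t + 1)
    (hd₁pos : (0 : ℝ) < d₁) (hρ : ρ = exp (t ^ 3 / d₁)) (hM₁a : (M₁ : ℝ) ≤ ρ / 2)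
    (hM₂a : exp (β * t) ≤ M₂) (hd₂a : κ + 1 ≤ d₂) (h4 : α * t + 1 ≤ exp (β * t)) :
    d₁ * M₁ ^ 2 ≤ (3 * M₂) ^ d₂ := by
  have hρpos : 0 < ρ := by rw [hρ]; exact exp_pos _
  have hreal : (d₁ : ℝ) * (M₁ : ℝ) ^ 2 ≤ (3 * (M₂ : ℝ)) ^ d₂ := by
    have hstep1 : (M₁ : ℝ) ^ 2 ≤ exp (2 * t ^ 2 / α) := by
      have h8 : (M₁ : ℝ) ≤ ρ := by linarith
      have h9 : (M₁ : ℝ) ^ 2 ≤ ρ ^ 2 := pow_le_pow_left₀ (Nat.cast_nonneg _) h8 2
      have h10 : ρ ^ 2 = exp (2 * (t ^ 3 / d₁)) := by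
        rw [hρ, ← Real.exp_nat_mul]
        norm_num
      have h11 : t ^ 3 / d₁ ≤ t ^ 2 / α := by
        rw [div_le_div_iff₀ hd₁pos hαpos]
        nlinarith [pow_pos ht0 2]
      have h12 : 2 * (t ^ 3 / d₁) ≤ 2 * t ^ 2 / α := by
        have : 2 * t ^ 2 / α = 2 * (t ^ 2 / α) := by ring
        rw [this]
        linarith
      calc (M₁ : ℝ) ^ 2 ≤ ρ ^ 2 := h9
        _ = exp (2 * (t ^ 3 / d₁)) := h10
        _ ≤ _ := exp_le_exp.2 h12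
    have hstep2 : exp (β * t) * exp (2 * t ^ 2 / α) ≤ (3 * (M₂ : ℝ)) ^ d₂ := by
      have e1 : exp (β * t) * exp (2 * t ^ 2 / α) = exp (β * t * (κ + 1)) := by
        rw [← exp_add]
        congr 1
        rw [hκdef]
        field_simp
        ring
      have e2 : exp (β * t * (κ + 1)) ≤ exp (β * t) ^ d₂ := by
        rw [← Real.exp_nat_mul]
        apply exp_le_exp.2
        have : 0 < β * t := by positivity
        nlinarith
      have e3 : exp (β * t) ^ d₂ ≤ (3 * (M₂ : ℝ)) ^ d₂ := by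
        apply pow_le_pow_left₀ (exp_pos _).le
        have : (0 : ℝ) ≤ M₂ := Nat.cast_nonneg _
        linarith
      rw [e1]
      exact e2.trans e3
    calc (d₁ : ℝ) * (M₁ : ℝ) ^ 2 ≤ exp (β * t) * exp (2 * t ^ 2 / α) := by
          apply mul_le_mul (by linarith) hstep1 (by positivity) (exp_pos _).le
      _ ≤ _ := hstep2
  exact_mod_cast hreal

/-- The bound for the total loss. -/
lemma loss_bound {c α β κ ε t : ℝ} {d₁ d₂ M₂ : ℕ} (hc : 0 < c) (ht0 : 0 < t)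
    (hαL : α * log 2 = c) (hββ : 2 * β = c) (hκ' : κ * log 3 = c * t) (hκpos : 0 < κ)
    (hd₁b : (d₁ : ℝ) < α * t + 1) (hd₂b : (d₂ : ℝ) ≤ κ + 2) (hd₂pos : (1 : ℝ) ≤ d₂)
    (hM₂b : (M₂ : ℝ) ≤ 2 * exp (β * t)) (h5 : 360 * (κ + 2) ≤ exp (ε * t)) :
    2 * 2 ^ d₁ * (2 * 3 ^ d₂ * ((d₂ : ℝ) * (M₂ : ℝ) ^ 2 + 1)) ≤ exp ((3 * c + ε) * t) := by
  have hL2 : 0 < log 2 := log_pos one_lt_two
  have hL3 : 0 < log 3 := log_pos (by norm_num)
  have hexpc : 1 ≤ exp (c * t) := one_le_exp (by positivity)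
  have h2pow : (2 : ℝ) ^ d₁ ≤ 2 * exp (c * t) := by
    rw [pow_eq_exp two_pos]
    have e : 2 * exp (c * t) = exp (log 2 + c * t) := by
      rw [exp_add, exp_log two_pos]
    rw [e]
    apply exp_le_exp.2
    nlinarith
  have h3pow : (3 : ℝ) ^ d₂ ≤ 9 * exp (c * t) := by
    rw [pow_eq_exp (by norm_num : (0 : ℝ) < 3)]
    have e : 9 * exp (c * t) = exp (2 * log 3 + c * t) := by
      rw [exp_add, two_mul, exp_add, exp_log (by norm_num : (0 : ℝ) < 3)]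
      norm_num
    rw [e]
    apply exp_le_exp.2
    nlinarith
  have hsq : (M₂ : ℝ) ^ 2 ≤ 4 * exp (c * t) := by
    have : (M₂ : ℝ) ^ 2 ≤ (2 * exp (β * t)) ^ 2 :=
      pow_le_pow_left₀ (Nat.cast_nonneg _) hM₂b 2
    have e : (2 * exp (β * t)) ^ 2 = 4 * exp (c * t) := by
      rw [mul_pow, ← Real.exp_nat_mul, ← hββ]
      norm_num
      ring_nf
    linarith
  have e1 : (d₂ : ℝ) * (M₂ : ℝ) ^ 2 + 1 ≤ 5 * (κ + 2) * exp (c * t) := by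
    have : (d₂ : ℝ) * (M₂ : ℝ) ^ 2 ≤ (κ + 2) * (4 * exp (c * t)) := by
      apply mul_le_mul hd₂b hsq (by positivity) (by positivity)
    nlinarith
  have e3 : exp (3 * c * t) = exp (c * t) * exp (c * t) * exp (c * t) := by
    rw [← exp_add, ← exp_add]
    ring_nf
  have hA1 : 0 < exp (c * t) := exp_pos _
  have hDle : 2 * 2 ^ d₁ * (2 * 3 ^ d₂ * ((d₂ : ℝ) * (M₂ : ℝ) ^ 2 + 1)) ≤
      360 * (κ + 2) * exp (3 * c * t) := by
    calc 2 * 2 ^ d₁ * (2 * 3 ^ d₂ * ((d₂ : ℝ) * (M₂ : ℝ) ^ 2 + 1))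
        = 4 * ((2 : ℝ) ^ d₁ * (3 : ℝ) ^ d₂ * ((d₂ : ℝ) * (M₂ : ℝ) ^ 2 + 1)) := by
          ring
      _ ≤ 4 * ((2 * exp (c * t)) * (9 * exp (c * t)) * (5 * (κ + 2) * exp (c * t))) := by
          apply mul_le_mul_of_nonneg_left _ (by norm_num)
          apply mul_le_mul (mul_le_mul h2pow h3pow (by positivity) (by positivity)) e1
            (by positivity) (by positivity)
      _ = 360 * (κ + 2) * exp (3 * c * t) := by rw [e3]; ring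
  have e : exp ((3 * c + ε) * t) = exp (3 * c * t) * exp (ε * t) := by
    rw [← exp_add]
    ring_nf
  rw [e]
  calc _ ≤ 360 * (κ + 2) * exp (3 * c * t) := hDle
    _ ≤ exp (ε * t) * exp (3 * c * t) :=
        mul_le_mul_of_nonneg_right h5 (exp_pos _).le
    _ = _ := mul_comm _ _

/-- Combining the count and the loss. -/
lemma combine {N M D P E : ℝ} {card : ℝ} {d₁ : ℕ} (hDpos : 0 < D) (hNnn : 0 ≤ N)
    (hcardR : M ≤ card * D) (hlow : N / (2 * 2 ^ d₁) ≤ M)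
    (hfinal : 2 * 2 ^ d₁ * D ≤ P) (hE : 0 ≤ E) (hEP : E * P = 1) : N * E ≤ card := by
  have hstep : N * E * D ≤ M := by
    refine le_trans ?_ hlow
    rw [le_div_iff₀ (by positivity)]
    have e : N * E * D * (2 * 2 ^ d₁) = N * (E * (2 * 2 ^ d₁ * D)) := by ring
    rw [e]
    apply mul_le_of_le_one_right hNnn
    calc E * (2 * 2 ^ d₁ * D) ≤ E * P := mul_le_mul_of_nonneg_left hfinal hE
      _ = 1 := hEP
  exact le_of_mul_le_mul_right (hstep.trans hcardR) hDpos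

/-- The construction for a given real parameter `t`, where `N = exp (t ^ 3)`. -/
theorem param_step {c α β ε t : ℝ} {N : ℕ} (hc : 0 < c) (hc3 : c ^ 3 = 4 * log 2 * log 3)
    (hα : α = c / log 2) (hβ : β = c / 2) (hN : (N : ℝ) = exp (t ^ 3)) (ht0 : 0 < t)
    (h1 : 2 * α ≤ t) (h2 : 2 ≤ α * t) (h3 : 2 * (α * t + 1) ^ 2 ≤ exp t)
    (h4 : α * t + 1 ≤ exp (β * t)) (h5 : 360 * (2 * t / (α * β) + 2) ≤ exp (ε * t)) :
    ∃ A : Finset ℕ, A ⊆ Finset.Icc 1 N ∧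
      (∀ a d : ℕ, 0 < d → ¬ ∀ i, i < 8 → a + i * d ∈ A) ∧
      (N : ℝ) * exp (-(3 * c + ε) * t) ≤ A.card := by
  have hL2 : 0 < log 2 := log_pos one_lt_two
  have hL3 : 0 < log 3 := log_pos (by norm_num)
  have hαpos : 0 < α := by rw [hα]; positivity
  have hβpos : 0 < β := by rw [hβ]; positivity
  have hαL : α * log 2 = c := by rw [hα]; field_simp
  have hββ : 2 * β = c := by rw [hβ]; ring
  have hκ : 2 * log 3 / (α * β) = c := by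
    rw [hα, hβ]
    field_simp
    nlinarith
  -- parameters
  obtain ⟨d₁, hd₁a, hd₁b⟩ : ∃ d₁ : ℕ, α * t ≤ d₁ ∧ (d₁ : ℝ) < α * t + 1 :=
    ⟨⌈α * t⌉₊, Nat.le_ceil _, Nat.ceil_lt_add_one (by positivity)⟩
  have hd₁2 : (2 : ℝ) ≤ d₁ := h2.trans hd₁a
  have hd₁pos : (0 : ℝ) < d₁ := by linarith
  obtain ⟨ρ, hρ⟩ : ∃ ρ : ℝ, ρ = exp (t ^ 3 / d₁) := ⟨_, rfl⟩
  have hρpos : 0 < ρ := by rw [hρ]; exact exp_pos _
  have hρpow : ρ ^ d₁ = N := by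
    rw [hρ, ← Real.exp_nat_mul, hN]
    congr 1
    field_simp
  -- ρ is large
  have htα : t ^ 3 / d₁ ≥ t := by
    rw [ge_iff_le, le_div_iff₀ hd₁pos]
    have : (d₁ : ℝ) ≤ t ^ 2 := by
      have h6 : α * t + 1 ≤ 2 * α * t := by nlinarith
      have h7 : 2 * α * t ≤ t * t := by nlinarith
      nlinarith
    nlinarith
  have hρbig : 2 * (d₁ : ℝ) ^ 2 ≤ ρ := by
    calc 2 * (d₁ : ℝ) ^ 2 ≤ 2 * (α * t + 1) ^ 2 := by
          have : (d₁ : ℝ) ^ 2 ≤ (α * t + 1) ^ 2 := by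
            apply pow_le_pow_left₀ hd₁pos.le hd₁b.le
          linarith
      _ ≤ exp t := h3
      _ ≤ ρ := by rw [hρ]; exact exp_le_exp.2 htα
  obtain ⟨M₁, hM₁a, hM₁b⟩ : ∃ M₁ : ℕ, (M₁ : ℝ) ≤ ρ / 2 ∧ ρ / 2 - 1 < M₁ :=
    ⟨⌊ρ / 2⌋₊, Nat.floor_le (by positivity), Nat.sub_one_lt_floor _⟩
  have hexpβ : 1 ≤ exp (β * t) := one_le_exp (by positivity)
  obtain ⟨M₂, hM₂a, hM₂b', hM₂pos⟩ : ∃ M₂ : ℕ, exp (β * t) ≤ M₂ ∧ (M₂ : ℝ) < exp (β * t) + 1 ∧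
      0 < M₂ :=
    ⟨⌈exp (β * t)⌉₊, Nat.le_ceil _, Nat.ceil_lt_add_one (exp_pos _).le, Nat.ceil_pos.2 (exp_pos _)⟩
  have hM₂b : (M₂ : ℝ) ≤ 2 * exp (β * t) := by linarith
  obtain ⟨κ, hκdef⟩ : ∃ κ : ℝ, κ = 2 * t / (α * β) := ⟨_, rfl⟩
  have hκpos : 0 < κ := by rw [hκdef]; positivity
  obtain ⟨d₂, hd₂a, hd₂b⟩ : ∃ d₂ : ℕ, κ + 1 ≤ d₂ ∧ (d₂ : ℝ) ≤ κ + 2 := by
    refine ⟨⌈κ⌉₊ + 1, ?_, ?_⟩
    · push_cast
      linarith [Nat.le_ceil κ]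
    · push_cast
      linarith [Nat.ceil_lt_add_one hκpos.le]
  have hd₂pos : (1 : ℝ) ≤ d₂ := by linarith
  have hκ' : κ * log 3 = c * t := by
    rw [hκdef, ← hκ]
    field_simp
  have hT := size_hyp ht0 hαpos hβpos hκdef hd₁a hd₁b hd₁pos hρ hM₁a hM₂a hd₂a h4
  obtain ⟨A, hA, hAP, hcard⟩ := exists_set d₁ d₂ M₁ M₂ hM₂pos hT
  refine ⟨A, ?_, hAP, ?_⟩
  · -- containment
    refine hA.trans (Finset.Icc_subset_Icc le_rfl ?_)
    have : ((2 * M₁ : ℕ) : ℝ) ^ d₁ ≤ ρ ^ d₁ := by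
      apply pow_le_pow_left₀ (Nat.cast_nonneg _)
      push_cast
      linarith
    rw [hρpow] at this
    exact_mod_cast this
  · -- the count
    have hcardR : (M₁ : ℝ) ^ d₁ ≤ (A.card : ℝ) * (2 * 3 ^ d₂ * ((d₂ : ℝ) * (M₂ : ℝ) ^ 2 + 1)) := by
      exact_mod_cast hcard
    have hlow := first_level_count hρpos hd₁2 hρbig hρpow hM₁b
    have h5' : 360 * (κ + 2) ≤ exp (ε * t) := by rw [hκdef]; exact h5
    have hfinal := loss_bound (ε := ε) hc ht0 hαL hββ hκ' hκpos hd₁b hd₂b hd₂pos hM₂b h5'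
    refine combine (by positivity) (Nat.cast_nonneg _) hcardR hlow hfinal (exp_pos _).le ?_
    rw [← exp_add]
    have hz : -(3 * c + ε) * t + (3 * c + ε) * t = 0 := by ring
    rw [hz, exp_zero]

/-- The asymptotic lower bound. -/
theorem main8 (ε : ℝ) (hε : 0 < ε) : ∀ᶠ N : ℕ in atTop, ∃ A : Finset ℕ,
    A ⊆ Finset.Icc 1 N ∧ (∀ a d : ℕ, 0 < d → ¬ ∀ i, i < 8 → a + i * d ∈ A) ∧
    (N : ℝ) * exp (-(3 * (4 * log 2 * log 3) ^ (1 / 3 : ℝ) + ε) * (log N) ^ (1 / 3 : ℝ)) ≤ A.card := by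
  have hL2 : 0 < log 2 := log_pos one_lt_two
  have hL3 : 0 < log 3 := log_pos (by norm_num)
  set c : ℝ := (4 * log 2 * log 3) ^ (1 / 3 : ℝ) with hc
  have hcpos : 0 < c := by rw [hc]; positivity
  have hc3 : c ^ 3 = 4 * log 2 * log 3 := by
    rw [hc, ← Real.rpow_natCast, ← Real.rpow_mul (by positivity)]
    norm_num
  set α : ℝ := c / log 2 with hα
  set β : ℝ := c / 2 with hβ
  have hαpos : 0 < α := by rw [hα]; positivity
  have hβpos : 0 < β := by rw [hβ]; positivity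
  have hev : ∀ᶠ t : ℝ in atTop, 0 < t ∧ 2 * α ≤ t ∧ 2 ≤ α * t ∧ 2 * (α * t + 1) ^ 2 ≤ exp t ∧
      α * t + 1 ≤ exp (β * t) ∧ 360 * (2 * t / (α * β) + 2) ≤ exp (ε * t) := by
    have e1 := eventually_gt_atTop (0 : ℝ)
    have e2 := eventually_ge_atTop (2 * α)
    have e3 := eventually_ge_atTop (2 / α)
    have e4 := ev_quad_le_exp (2 * α ^ 2) (4 * α) 2 1 one_pos
    have e5 := ev_quad_le_exp 0 α 1 β hβpos
    have e6 := ev_quad_le_exp 0 (360 * (2 / (α * β))) 720 ε hε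
    filter_upwards [e1, e2, e3, e4, e5, e6] with t h1 h2 h3 h4 h5 h6
    refine ⟨h1, h2, ?_, ?_, ?_, ?_⟩
    · rw [div_le_iff₀ hαpos] at h3
      linarith
    · rw [one_mul] at h4
      linarith
    · linarith
    · have : 360 * (2 * t / (α * β) + 2) = 0 * t ^ 2 + 360 * (2 / (α * β)) * t + 720 := by
        ring
      rw [this]
      exact h6
  have htend : Tendsto (fun N : ℕ => (log (N : ℝ)) ^ (1 / 3 : ℝ)) atTop atTop :=
    (tendsto_rpow_atTop (by norm_num)).comp (tendsto_log_atTop.comp tendsto_natCast_atTop_atTop)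
  filter_upwards [htend.eventually hev, eventually_ge_atTop 1] with N hN hN1
  obtain ⟨h0, h1, h2, h3, h4, h5⟩ := hN
  have hlog : 0 ≤ log (N : ℝ) := log_nonneg (by exact_mod_cast hN1)
  have hcube : ((log (N : ℝ)) ^ (1 / 3 : ℝ)) ^ 3 = log N := by
    rw [← Real.rpow_natCast, ← Real.rpow_mul hlog]
    norm_num
  have hNexp : (N : ℝ) = exp (((log (N : ℝ)) ^ (1 / 3 : ℝ)) ^ 3) := by
    rw [hcube, exp_log (by exact_mod_cast hN1)]
  exact param_step hcpos hc3 hα hβ hNexp h0 h1 h2 h3 h4 h5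

end Vale.Agent.Lib.P057
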