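import Mathlib

/-!
A digit set of density about 5/9 in the cyclic group of odd order `m` for sets without 4-term
arithmetic progressions: even residues below `m/3` in absolute value together with odd residues
below `2m/9` in absolute value. The weight is the square of the representative, with an additional
`m^2` on odd representatives.
-/

namespace Vale.Agent.Lib.P057

open Finset

/-- The digit condition on a signed representative `u` modulo `m`. -/
def Good (m u : ℤ) : Prop :=
  (Even u ∧ -m < 3 * u ∧ 3 * u < m) ∨ (Odd u ∧ -(2 * m) < 9 * u ∧ 9 * u < 2 * m)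

/-- The weight of a signed representative. -/
def Fw (m u : ℤ) : ℤ := u ^ 2 + if Odd u then m ^ 2 else 0

lemma Fw_even {m u : ℤ} (h : Even u) : Fw m u = u ^ 2 := by
  have : ¬ Odd u := by rwa [Int.not_odd_iff_even]
  simp [Fw, this]

lemma Fw_odd {m u : ℤ} (h : Odd u) : Fw m u = u ^ 2 + m ^ 2 := by
  simp [Fw, h]

lemma Good.bounds {m u : ℤ} (h : Good m u) : -m < 3 * u ∧ 3 * u < m := by
  rcases h with ⟨-, a, b⟩ | ⟨-, a, b⟩ <;> constructor <;> omega

/-- The regular case of the core inequality. -/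
lemma core_regular {u0 u1 u2 u3 L : ℤ} (e1 : u0 + u2 = 2 * u1) (e2 : u1 + u3 = 2 * u2)
    (hL : L = u0 ^ 2 - u1 ^ 2 - u2 ^ 2 + u3 ^ 2) :
    0 < L ∨ (u0 = u1 ∧ u1 = u2 ∧ u2 = u3) := by
  have h2 : u2 = 2 * u1 - u0 := by linarith
  have h3 : u3 = 3 * u1 - 2 * u0 := by linarith
  by_cases h : u0 = u1
  · right
    subst h
    constructor
    · rfl
    constructor <;> linarith
  · left
    have hne : u1 - u0 ≠ 0 := sub_ne_zero.2 (Ne.symm h)
    have hpos : 0 < (u1 - u0) ^ 2 := by positivity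
    have : L = 4 * (u1 - u0) ^ 2 := by
      rw [hL, h3, h2]
      ring
    rw [this]
    linarith

/-- The core inequality: for an arithmetic progression modulo the odd number `m` whose signed
representatives satisfy the digit condition, the alternating sum of weights is positive unless
the progression is constant. -/
theorem core {m u0 u1 u2 u3 : ℤ} (hm : Odd m) (h0 : Good m u0) (h1 : Good m u1) (h2 : Good m u2)
    (h3 : Good m u3) (d1 : m ∣ u0 + u2 - 2 * u1) (d2 : m ∣ u1 + u3 - 2 * u2) :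
    0 < Fw m u0 - Fw m u1 - Fw m u2 + Fw m u3 ∨ (u0 = u1 ∧ u1 = u2 ∧ u2 = u3) := by
  obtain ⟨a0, b0⟩ := h0.bounds
  obtain ⟨a1, b1⟩ := h1.bounds
  obtain ⟨a2, b2⟩ := h2.bounds
  obtain ⟨a3, b3⟩ := h3.bounds
  have hmpos : 0 < m := by omega
  have hm2 : 0 < m ^ 2 := by positivity
  have s1 : 9 * u1 ^ 2 < m ^ 2 := by nlinarith
  have s2 : 9 * u2 ^ 2 < m ^ 2 := by nlinarith
  have q0 := sq_nonneg u0
  have q3 := sq_nonneg u3
  obtain ⟨n, hn⟩ := hm
  obtain ⟨e1, he1⟩ := d1
  obtain ⟨e2, he2⟩ := d2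
  have e1a : e1 ≤ 1 := by
    by_contra h
    have : 2 ≤ e1 := by omega
    nlinarith
  have e1b : -1 ≤ e1 := by
    by_contra h
    have : e1 ≤ -2 := by omega
    nlinarith
  have e2a : e2 ≤ 1 := by
    by_contra h
    have : 2 ≤ e2 := by omega
    nlinarith
  have e2b : -1 ≤ e2 := by
    by_contra h
    have : e2 ≤ -2 := by omega
    nlinarith
  rcases h0 with ⟨p0, x0, y0⟩ | ⟨p0, x0, y0⟩ <;> rcases h1 with ⟨p1, x1, y1⟩ | ⟨p1, x1, y1⟩ <;>
    rcases h2 with ⟨p2, x2, y2⟩ | ⟨p2, x2, y2⟩ <;> rcases h3 with ⟨p3, x3, y3⟩ | ⟨p3, x3, y3⟩ <;>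
    simp only [Fw_even, Fw_odd, p0, p1, p2, p3] <;>
    first
    | (left; linarith)
    | skip
  -- the remaining patterns have net parity contribution at most zero
  all_goals
    obtain ⟨r0, hr0⟩ := p0
    obtain ⟨r1, hr1⟩ := p1
    obtain ⟨r2, hr2⟩ := p2
    obtain ⟨r3, hr3⟩ := p3
    interval_cases e1 <;> interval_cases e2 <;>
    first
    | (exfalso; omega)
    | (apply core_regular (u0 := u0) (u1 := u1) (u2 := u2) (u3 := u3) (by omega) (by omega)
        (by ring))

/-- Basic bounds for the weight on digits. -/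
lemma Fw_nonneg {m u : ℤ} : 0 ≤ Fw m u := by
  rcases Int.even_or_odd u with h | h
  · rw [Fw_even h]; positivity
  · rw [Fw_odd h]; positivity

lemma Fw_le {m u : ℤ} (h : Good m u) : Fw m u ≤ 2 * m ^ 2 := by
  obtain ⟨a, b⟩ := h.bounds
  have hmpos : 0 < m := by omega
  have s : 9 * u ^ 2 < m ^ 2 := by nlinarith
  rcases Int.even_or_odd u with h | h
  · rw [Fw_even h]; nlinarith [sq_nonneg m]
  · rw [Fw_odd h]; nlinarith [sq_nonneg m]

open Classical in
/-- The digit set in the cyclic group of order `m`. -/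
noncomputable def digitSet (m : ℕ) [NeZero m] : Finset (ZMod m) :=
  (univ : Finset (ZMod m)).filter fun x => Good (m : ℤ) x.valMinAbs

lemma mem_digitSet {m : ℕ} [NeZero m] {x : ZMod m} :
    x ∈ digitSet m ↔ Good (m : ℤ) x.valMinAbs := by
  simp [digitSet]

/-- Membership of an integer's residue in the digit set. -/
lemma cast_mem_digitSet {m : ℕ} [NeZero m] {u : ℤ} (h : Good (m : ℤ) u) :
    (u : ZMod m) ∈ digitSet m ∧ ((u : ZMod m)).valMinAbs = u := by
  obtain ⟨a, b⟩ := h.bounds
  have hv : ((u : ZMod m)).valMinAbs = u := by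
    rw [ZMod.valMinAbs_spec]
    refine ⟨rfl, ?_, ?_⟩ <;> omega
  refine ⟨?_, hv⟩
  rw [mem_digitSet, hv]
  exact h

lemma zero_mem_digitSet {m : ℕ} [NeZero m] : (0 : ZMod m) ∈ digitSet m := by
  have hm : 0 < m := Nat.pos_of_ne_zero (NeZero.ne m)
  have h : Good (m : ℤ) 0 := by
    left
    refine ⟨Even.zero, ?_, ?_⟩ <;> omega
  have := (cast_mem_digitSet (m := m) h).1
  simpa using this

/-- Lower bound for the size of the digit set. -/
theorem digitSet_card (m : ℕ) [NeZero m] (hodd : Odd m) : 5 * m ≤ 9 * (digitSet m).card + 18 := by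
  classical
  have hm : 0 < m := Nat.pos_of_ne_zero (NeZero.ne m)
  set K1 : ℕ := (m - 1) / 6 with hK1
  set K2 : ℕ := (2 * m + 8) / 18 with hK2
  let S1 : Finset ℤ := (Icc (-(K1 : ℤ)) K1).image fun v => 2 * v
  let S2 : Finset ℤ := (Icc (-(K2 : ℤ)) (K2 - 1)).image fun v => 2 * v + 1
  have hS1 : S1.card = 2 * K1 + 1 := by
    rw [card_image_of_injective _ (fun a b h => by simpa using h), Int.card_Icc]
    omega
  have hS2 : S2.card = 2 * K2 := by
    rw [card_image_of_injective _ (fun a b h => by simpa using h), Int.card_Icc]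
    omega
  have hdisj : Disjoint S1 S2 := by
    rw [disjoint_left]
    intro x hx hy
    obtain ⟨a, -, rfl⟩ := mem_image.1 hx
    obtain ⟨b, -, hb⟩ := mem_image.1 hy
    omega
  have hgood : ∀ u ∈ S1 ∪ S2, Good (m : ℤ) u := by
    intro u hu
    rcases mem_union.1 hu with h | h
    · obtain ⟨v, hv, rfl⟩ := mem_image.1 h
      obtain ⟨h1, h2⟩ := mem_Icc.1 hv
      left
      refine ⟨even_two_mul v, ?_, ?_⟩ <;> omega
    · obtain ⟨v, hv, rfl⟩ := mem_image.1 h
      obtain ⟨h1, h2⟩ := mem_Icc.1 hv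
      right
      refine ⟨odd_two_mul_add_one v, ?_, ?_⟩ <;> omega
  have hinj : Set.InjOn (fun u : ℤ => (u : ZMod m)) ((S1 ∪ S2 : Finset ℤ) : Set ℤ) := by
    intro u hu v hv huv
    have h1 := (cast_mem_digitSet (m := m) (hgood u hu)).2
    have h2 := (cast_mem_digitSet (m := m) (hgood v hv)).2
    have h3 : (u : ZMod m) = (v : ZMod m) := huv
    rw [← h1, ← h2, h3]
  have hsub : (S1 ∪ S2).image (fun u : ℤ => (u : ZMod m)) ⊆ digitSet m := by
    intro x hx
    obtain ⟨u, hu, rfl⟩ := mem_image.1 hx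
    exact (cast_mem_digitSet (m := m) (hgood u hu)).1
  have hcard := card_le_card hsub
  rw [card_image_of_injOn hinj, card_union_of_disjoint hdisj, hS1, hS2] at hcard
  omega

/-- A cruder lower bound for the digit set that holds for the auxiliary modulus. -/
theorem digitSet_third (m : ℕ) [NeZero m] (hodd : Odd m) (h : m ≤ 3 ∨ 9 ≤ m) :
    m ≤ 3 * (digitSet m).card := by
  rcases h with h | h
  · have : 0 < (digitSet m).card := card_pos.2 ⟨0, zero_mem_digitSet⟩
    omega
  · have := digitSet_card m hodd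
    omega

/-- The set constructed from a family of pairwise coprime odd moduli. -/
theorem master {ι : Type*} [Fintype ι] (m : ι → ℕ) [∀ i, NeZero (m i)]
    (hodd : ∀ i, Odd (m i)) (hco : Pairwise (Function.onFun Nat.Coprime m)) :
    ∃ A : Finset ℕ, A ⊆ Icc 1 (∏ i, m i) ∧
      (∀ a d : ℕ, 0 < d → ¬ ∀ i : ℕ, i < 4 → a + i * d ∈ A) ∧
      ∏ i, (digitSet (m i)).card ≤ A.card * (2 * ∑ i, (m i) ^ 2 + 1) := by
  classical
  haveI hP : NeZero (∏ i, m i) := ⟨prod_ne_zero_iff.2 fun i _ => NeZero.ne _⟩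
  let e := ZMod.prodEquivPi m hco
  let G : Finset (∀ i, ZMod (m i)) := Fintype.piFinset fun i => digitSet (m i)
  let Sc : (∀ i, ZMod (m i)) → ℤ := fun x => ∑ i, Fw (m i) (x i).valMinAbs
  set R : ℕ := 2 * ∑ i, (m i) ^ 2 with hR
  have hmaps : ∀ x ∈ G, Sc x ∈ Icc (0 : ℤ) (R : ℤ) := by
    intro x hx
    have hx' := Fintype.mem_piFinset.1 hx
    rw [mem_Icc]
    constructor
    · exact sum_nonneg fun i _ => Fw_nonneg
    · calc Sc x ≤ ∑ i, 2 * (m i : ℤ) ^ 2 :=
            sum_le_sum fun i _ => Fw_le (mem_digitSet.1 (hx' i))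
        _ = (R : ℤ) := by
            rw [hR]
            push_cast
            rw [mul_sum]
  have hne : (Icc (0 : ℤ) (R : ℤ)).Nonempty := nonempty_Icc.2 (by omega)
  have hcardt : (Icc (0 : ℤ) (R : ℤ)).card = R + 1 := by
    rw [Int.card_Icc]
    omega
  have hb : (Icc (0 : ℤ) (R : ℤ)).card • ((G.card : ℝ) / ((R + 1 : ℕ) : ℝ)) ≤ (G.card : ℝ) := by
    rw [hcardt, nsmul_eq_mul]
    have : ((R + 1 : ℕ) : ℝ) ≠ 0 := by positivity
    rw [mul_div_cancel₀ _ this]
  obtain ⟨s, -, hs⟩ := exists_le_card_fiber_of_nsmul_le_card_of_maps_to hmaps hne hb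
  set F := G.filter fun x => Sc x = s with hF
  have hFcard : G.card ≤ F.card * (R + 1) := by
    have hpos : ((R + 1 : ℕ) : ℝ) > 0 := by positivity
    rw [div_le_iff₀ hpos] at hs
    exact_mod_cast hs
  let φ : (∀ i, ZMod (m i)) → ℕ := fun x => (e.symm x).val + 1
  have hφinj : Function.Injective φ := by
    intro x y hxy
    have h1 : (e.symm x).val = (e.symm y).val := by
      simpa [φ] using hxy
    exact e.symm.injective (ZMod.val_injective _ h1)
  refine ⟨F.image φ, ?_, ?_, ?_⟩
  · intro y hy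
    obtain ⟨x, -, rfl⟩ := mem_image.1 hy
    have := ZMod.val_lt (e.symm x)
    rw [mem_Icc]
    simp only [φ]
    omega
  · intro a d hd hap
    -- extract the four points
    have hex : ∀ i : ℕ, i < 4 → ∃ x ∈ F, (e.symm x).val + 1 = a + i * d := by
      intro i hi
      obtain ⟨x, hx, hxa⟩ := mem_image.1 (hap i hi)
      exact ⟨x, hx, hxa⟩
    obtain ⟨x0, hx0, v0⟩ := hex 0 (by omega)
    obtain ⟨x1, hx1, v1⟩ := hex 1 (by omega)
    obtain ⟨x2, hx2, v2⟩ := hex 2 (by omega)
    obtain ⟨x3, hx3, v3⟩ := hex 3 (by omega)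
    obtain ⟨a', ha'⟩ : ∃ a', a = a' + 1 := ⟨a - 1, by omega⟩
    have w0 : (e.symm x0).val = a' := by omega
    have w1 : (e.symm x1).val = a' + d := by
      have : ((1 : ℕ) : ℕ) * d = d := one_mul d
      omega
    have w2 : (e.symm x2).val = a' + d + d := by
      have : 2 * d = d + d := two_mul d
      omega
    have w3 : (e.symm x3).val = a' + d + d + d := by
      have : 3 * d = d + d + d := by ring
      omega
    -- images under the ring isomorphism
    have cast_eq : ∀ (x : ∀ i, ZMod (m i)) (n : ℕ), (e.symm x).val = n → x = e (n : ZMod (∏ i, m i)) := by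
      intro x n hn
      rw [← hn, ZMod.natCast_zmod_val, RingEquiv.apply_symm_apply]
    set r := e (a' : ZMod (∏ i, m i)) with hr
    set t := e (d : ZMod (∏ i, m i)) with ht
    have y0 : x0 = r := cast_eq x0 a' w0
    have y1 : x1 = r + t := by
      rw [cast_eq x1 _ w1]
      push_cast
      rw [map_add]
    have y2 : x2 = r + t + t := by
      rw [cast_eq x2 _ w2]
      push_cast
      rw [map_add, map_add]
    have y3 : x3 = r + t + t + t := by
      rw [cast_eq x3 _ w3]
      push_cast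
      rw [map_add, map_add, map_add]
    have mem_G : ∀ {x}, x ∈ F → x ∈ G ∧ Sc x = s := fun hx => mem_filter.1 hx
    have digit : ∀ {x}, x ∈ F → ∀ j, Good (m j : ℤ) (x j).valMinAbs := by
      intro x hx j
      exact mem_digitSet.1 (Fintype.mem_piFinset.1 (mem_G hx).1 j)
    -- the coordinatewise inequality
    have hcore : ∀ j, 0 < Fw (m j) (x0 j).valMinAbs - Fw (m j) (x1 j).valMinAbs
        - Fw (m j) (x2 j).valMinAbs + Fw (m j) (x3 j).valMinAbs ∨
        ((x0 j).valMinAbs = (x1 j).valMinAbs ∧ (x1 j).valMinAbs = (x2 j).valMinAbs ∧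
          (x2 j).valMinAbs = (x3 j).valMinAbs) := by
      intro j
      refine core (by exact_mod_cast hodd j) (digit hx0 j) (digit hx1 j) (digit hx2 j)
        (digit hx3 j) ?_ ?_
      · rw [← ZMod.intCast_zmod_eq_zero_iff_dvd]
        push_cast
        simp only [ZMod.coe_valMinAbs, y0, y1, y2, Pi.add_apply]
        ring
      · rw [← ZMod.intCast_zmod_eq_zero_iff_dvd]
        push_cast
        simp only [ZMod.coe_valMinAbs, y1, y2, y3, Pi.add_apply]
        ring
    have hnonneg : ∀ j, 0 ≤ Fw (m j) (x0 j).valMinAbs - Fw (m j) (x1 j).valMinAbs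
        - Fw (m j) (x2 j).valMinAbs + Fw (m j) (x3 j).valMinAbs := by
      intro j
      rcases hcore j with h | ⟨h1, h2, h3⟩
      · exact h.le
      · rw [h1, h2, h3]
        ring_nf
        exact le_rfl
    have hsum : ∑ j, (Fw (m j) (x0 j).valMinAbs - Fw (m j) (x1 j).valMinAbs
        - Fw (m j) (x2 j).valMinAbs + Fw (m j) (x3 j).valMinAbs) = 0 := by
      rw [sum_add_distrib, sum_sub_distrib, sum_sub_distrib]
      have s0 : ∑ j, Fw (m j) (x0 j).valMinAbs = s := (mem_G hx0).2
      have s1 : ∑ j, Fw (m j) (x1 j).valMinAbs = s := (mem_G hx1).2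
      have s2 : ∑ j, Fw (m j) (x2 j).valMinAbs = s := (mem_G hx2).2
      have s3 : ∑ j, Fw (m j) (x3 j).valMinAbs = s := (mem_G hx3).2
      rw [s0, s1, s2, s3]
      ring
    have hzero := (sum_eq_zero_iff_of_nonneg (fun j _ => hnonneg j)).1 hsum
    have heq : x0 = x1 := by
      funext j
      rcases hcore j with h | ⟨h1, -, -⟩
      · have := hzero j (mem_univ j)
        omega
      · exact ZMod.valMinAbs_inj.1 h1
    rw [heq] at w0
    omega
  · rw [card_image_of_injective _ hφinj]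
    calc ∏ i, (digitSet (m i)).card = G.card := by
          rw [Fintype.card_piFinset]
      _ ≤ F.card * (R + 1) := hFcard

end Vale.Agent.Lib.P057
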