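import Mathlib
import Vale.Agent.Lib.P057.Tile4
import Vale.Agent.Lib.P057.Asymp8

/-!
Choice of moduli: distinct primes of nearly the same size, completed by a power of three.
-/

namespace Vale.Agent.Lib.P057

open Filter Real

/-- A lower bound for the prime counting function. -/
lemma pi_lower {Y : ℕ} {V : ℝ} (hY : (Y : ℝ) ≤ V) (hV : V - 1 ≤ Y) (hV1 : 1 ≤ V) (hY1 : 1 ≤ Y) :
    V * log 2 - 2 * log 2 - log V ≤ (Nat.primeCounting Y : ℝ) * log V := by
  have h1 := Chebyshev.psi_le_primeCounting_mul_log Y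
  have h2 := Chebyshev.psi_ge Y
  have hY0 : (0 : ℝ) < Y := by exact_mod_cast hY1
  have hlogY : log Y ≤ log V := log_le_log hY0 hY
  have hpi : (0 : ℝ) ≤ (Nat.primeCounting Y : ℝ) := Nat.cast_nonneg _
  have h3 : (Nat.primeCounting Y : ℝ) * log Y ≤ (Nat.primeCounting Y : ℝ) * log V :=
    mul_le_mul_of_nonneg_left hlogY hpi
  have hlog2 : 0 < log 2 := log_pos one_lt_two
  have h4 : log ((Y : ℝ) + 1) ≤ log 2 + log V := by
    rw [← log_mul two_ne_zero (by positivity)]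
    apply log_le_log (by positivity)
    linarith
  have h5 : (V - 1) * log 2 ≤ Y * log 2 := mul_le_mul_of_nonneg_right hV hlog2.le
  nlinarith

/-- Primes in an interval. -/
lemma card_primes_Ioc (X Y : ℕ) :
    Nat.primeCounting Y ≤ ((Finset.Ioc X Y).filter Nat.Prime).card + X := by
  classical
  rw [← Nat.primesLE_card_eq_primeCounting]
  have hsub : Nat.primesLE Y ⊆ ((Finset.Ioc X Y).filter Nat.Prime) ∪ Finset.Icc 1 X := by
    intro p hp
    obtain ⟨h1, h2⟩ := Nat.mem_primesLE.1 hp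
    by_cases h : p ≤ X
    · exact Finset.mem_union_right _ (Finset.mem_Icc.2 ⟨h2.one_lt.le, h⟩)
    · exact Finset.mem_union_left _ (Finset.mem_filter.2 ⟨Finset.mem_Ioc.2 ⟨by omega, h1⟩, h2⟩)
  calc (Nat.primesLE Y).card ≤ _ := Finset.card_le_card hsub
    _ ≤ _ := Finset.card_union_le _ _
    _ = _ := by simp

/-- A maximal subfamily with product at most `N`. -/
lemma exists_maximal {N : ℕ} (hN : 1 ≤ N) (Q : Finset ℕ) {τ : ℝ} (hτ : τ < Q.card)
    (hb : ∀ D ⊆ Q, ∏ p ∈ D, p ≤ N → (D.card : ℝ) ≤ τ) :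
    ∃ D ⊆ Q, ∏ p ∈ D, p ≤ N ∧ ∃ q ∈ Q, N < q * ∏ p ∈ D, p := by
  classical
  let C := Q.powerset.filter fun D => ∏ p ∈ D, p ≤ N
  have hC : C.Nonempty := ⟨∅, by simp [C, hN]⟩
  obtain ⟨D, hD, hmax⟩ := Finset.exists_max_image C Finset.card hC
  obtain ⟨hD1, hD2⟩ := Finset.mem_filter.1 hD
  have hD1' := Finset.mem_powerset.1 hD1
  have hlt : D.card < Q.card := by
    have := hb D hD1' hD2
    have h : (D.card : ℝ) < Q.card := lt_of_le_of_lt this hτ
    exact_mod_cast h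
  obtain ⟨q, hq, hqD⟩ := Finset.exists_mem_notMem_of_card_lt_card hlt
  refine ⟨D, hD1', hD2, q, hq, ?_⟩
  by_contra h
  push Not at h
  have hins : insert q D ∈ C := by
    refine Finset.mem_filter.2 ⟨Finset.mem_powerset.2 (Finset.insert_subset hq hD1'), ?_⟩
    rw [Finset.prod_insert hqD]
    exact h
  have := hmax _ hins
  rw [Finset.card_insert_of_notMem hqD] at this
  omega

/-- Completion by a power of three. -/
lemma filler {N P q : ℕ} (hP : 0 < P) (hPN : P ≤ N) (hq : N < q * P) :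
    ∃ a, 3 ^ a * P ≤ N ∧ N < 3 * (3 ^ a * P) ∧ 3 ^ a < q := by
  have hR : N / P ≠ 0 := (Nat.div_pos hPN hP).ne'
  refine ⟨Nat.log 3 (N / P), ?_, ?_, ?_⟩
  · calc 3 ^ Nat.log 3 (N / P) * P ≤ N / P * P :=
          Nat.mul_le_mul_right _ (Nat.pow_log_le_self 3 hR)
      _ ≤ N := Nat.div_mul_le_self N P
  · have h2 := Nat.lt_pow_succ_log_self (by norm_num : 1 < 3) (N / P)
    have h3 : N < P * (N / P + 1) := Nat.lt_mul_div_succ N hP
    calc N < P * (N / P + 1) := h3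
      _ ≤ P * 3 ^ (Nat.log 3 (N / P)).succ := Nat.mul_le_mul_left _ h2
      _ = 3 * (3 ^ Nat.log 3 (N / P) * P) := by
          rw [Nat.succ_eq_add_one, pow_succ]
          ring
  · have h1 := Nat.pow_log_le_self 3 hR
    have h2 : N / P < q := Nat.div_lt_of_lt_mul (by rwa [mul_comm] at hq)
    omega

/-- Application of the master construction to primes and a power of three. -/
theorem apply_master (D : Finset ℕ) (a : ℕ) (hD : ∀ p ∈ D, p.Prime ∧ 3 < p) :
    ∃ A : Finset ℕ, A ⊆ Finset.Icc 1 (3 ^ a * ∏ p ∈ D, p) ∧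
      (∀ a d : ℕ, 0 < d → ¬ ∀ i : ℕ, i < 4 → a + i * d ∈ A) ∧
      ((3 : ℝ) ^ a / 3) * ∏ p ∈ D, ((5 * (p : ℝ) - 18) / 9) ≤
        (A.card : ℝ) * (2 * (((3 : ℝ) ^ a) ^ 2 + ∑ p ∈ D, (p : ℝ) ^ 2) + 1) := by
  classical
  let m : Option D → ℕ := fun i => i.elim (3 ^ a) (fun p => p.1)
  have hmnone : m none = 3 ^ a := rfl
  have hmsome : ∀ p : D, m (some p) = p.1 := fun _ => rfl
  have hne : ∀ i, m i ≠ 0 := by
    intro i
    cases i with
    | none => exact pow_ne_zero _ (by norm_num)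
    | some p => exact (hD p.1 p.2).1.ne_zero
  have : ∀ i, NeZero (m i) := fun i => ⟨hne i⟩
  have hodd : ∀ i, Odd (m i) := by
    intro i
    cases i with
    | none => exact Odd.pow (by decide)
    | some p =>
      have h := hD p.1 p.2
      exact h.1.odd_of_ne_two (by have := h.2; omega)
  have hco : Pairwise (Function.onFun Nat.Coprime m) := by
    intro i j hij
    cases i with
    | none =>
      cases j with
      | none => exact absurd rfl hij
      | some q =>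
        have h := hD q.1 q.2
        show Nat.Coprime (3 ^ a) q.1
        exact Nat.Coprime.pow_left _ ((Nat.coprime_primes Nat.prime_three h.1).2 (by omega))
    | some p =>
      cases j with
      | none =>
        have h := hD p.1 p.2
        show Nat.Coprime p.1 (3 ^ a)
        exact Nat.Coprime.pow_right _ ((Nat.coprime_primes h.1 Nat.prime_three).2 (by omega))
      | some q =>
        have hpq : p.1 ≠ q.1 := fun h => hij (by rw [Subtype.ext h])
        exact (Nat.coprime_primes (hD p.1 p.2).1 (hD q.1 q.2).1).2 hpq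
  obtain ⟨A, hA, hAP, hcard⟩ := master m hodd hco
  have hprod : ∏ i, m i = 3 ^ a * ∏ p ∈ D, p := by
    rw [Fintype.prod_option, hmnone]
    congr 1
    exact Finset.prod_coe_sort D (fun p => p)
  rw [hprod] at hA
  refine ⟨A, hA, hAP, ?_⟩
  let b : Option D → ℝ := fun i => i.elim ((3 : ℝ) ^ a / 3) (fun p => (5 * (p.1 : ℝ) - 18) / 9)
  have hb0 : ∀ i, 0 ≤ b i := by
    intro i
    cases i with
    | none => exact div_nonneg (by positivity) (by norm_num)
    | some p =>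
      have h := (hD p.1 p.2).2
      have h' : (4 : ℝ) ≤ (p.1 : ℝ) := by exact_mod_cast h
      show 0 ≤ (5 * (p.1 : ℝ) - 18) / 9
      apply div_nonneg <;> linarith
  have hb1 : ∀ i, b i ≤ ((digitSet (m i)).card : ℝ) := by
    intro i
    cases i with
    | none =>
      have hcases : m none ≤ 3 ∨ 9 ≤ m none := by
        rw [hmnone]
        rcases a with _ | _ | a
        · left; norm_num
        · left; norm_num
        · right
          have : 3 ^ (a + 1 + 1) = 9 * 3 ^ a := by ring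
          rw [this]
          have : 0 < 3 ^ a := by positivity
          omega
      have h := digitSet_third (m none) (hodd none) hcases
      have h' : ((m none : ℕ) : ℝ) ≤ 3 * ((digitSet (m none)).card : ℝ) := by exact_mod_cast h
      show (3 : ℝ) ^ a / 3 ≤ _
      have h3 : ((m none : ℕ) : ℝ) = (3 : ℝ) ^ a := by rw [hmnone]; push_cast; rfl
      rw [h3] at h'
      linarith
    | some p =>
      have h := digitSet_card (m (some p)) (hodd (some p))
      have h' : (5 : ℝ) * ((m (some p) : ℕ) : ℝ) ≤ 9 * ((digitSet (m (some p))).card : ℝ) + 18 := by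
        exact_mod_cast h
      show (5 * (p.1 : ℝ) - 18) / 9 ≤ _
      have h3 : ((m (some p) : ℕ) : ℝ) = (p.1 : ℝ) := rfl
      rw [h3] at h'
      rw [div_le_iff₀ (by norm_num)]
      linarith
  have hstep : ∏ i, b i ≤ ((∏ i, (digitSet (m i)).card : ℕ) : ℝ) := by
    push_cast
    exact Finset.prod_le_prod (fun i _ => hb0 i) (fun i _ => hb1 i)
  have hbprod : ∏ i, b i = ((3 : ℝ) ^ a / 3) * ∏ p ∈ D, ((5 * (p : ℝ) - 18) / 9) := by
    rw [Fintype.prod_option]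
    congr 1
    exact Finset.prod_coe_sort D (fun p => (5 * (p : ℝ) - 18) / 9)
  have hsum : (∑ i, ((m i : ℕ) : ℝ) ^ 2) = ((3 : ℝ) ^ a) ^ 2 + ∑ p ∈ D, (p : ℝ) ^ 2 := by
    rw [Fintype.sum_option]
    congr 1
    · rw [hmnone]; push_cast; rfl
    · exact Finset.sum_coe_sort D (fun p => (p : ℝ) ^ 2)
  rw [← hbprod, ← hsum]
  refine hstep.trans ?_
  have : ((∏ i, (digitSet (m i)).card : ℕ) : ℝ) ≤
      ((A.card * (2 * ∑ i, (m i) ^ 2 + 1) : ℕ) : ℝ) := by exact_mod_cast hcard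
  refine this.trans (le_of_eq ?_)
  push_cast
  ring

/-- Product of the lower bounds for the digit sets. -/
lemma prod_bound (D : Finset ℕ) {X : ℕ} (hX : 5 ≤ X) (hD : ∀ p ∈ D, X < p)
    (h8 : 8 * D.card ≤ X) :
    (5 / 9 : ℝ) ^ D.card * (∏ p ∈ D, (p : ℝ)) / 2 ≤ ∏ p ∈ D, ((5 * (p : ℝ) - 18) / 9) := by
  have hXpos : (0 : ℝ) < X := by
    have : 0 < X := by omega
    exact_mod_cast this
  have hX5 : (5 : ℝ) ≤ X := by exact_mod_cast hX
  set θ : ℝ := 1 + (-(4 / (X : ℝ))) with hθ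
  have hle : 4 / (X : ℝ) ≤ 4 / 5 := by
    apply div_le_div_of_nonneg_left (by norm_num) (by norm_num) hX5
  have hθ0 : 0 ≤ θ := by rw [hθ]; linarith
  have hterm : ∀ p ∈ D, (5 / 9 : ℝ) * (p : ℝ) * θ ≤ (5 * (p : ℝ) - 18) / 9 := by
    intro p hp
    have h1 : (X : ℝ) < p := by exact_mod_cast hD p hp
    have h2 : (p : ℝ) * (4 / (X : ℝ)) ≥ 4 := by
      rw [ge_iff_le, mul_div_assoc', le_div_iff₀ hXpos]
      nlinarith
    rw [hθ]
    nlinarith
  have hprod : ∏ p ∈ D, ((5 / 9 : ℝ) * (p : ℝ) * θ) ≤ ∏ p ∈ D, ((5 * (p : ℝ) - 18) / 9) :=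
    Finset.prod_le_prod (fun p _ => by positivity) hterm
  have hsplit : ∏ p ∈ D, ((5 / 9 : ℝ) * (p : ℝ) * θ) =
      (5 / 9 : ℝ) ^ D.card * (∏ p ∈ D, (p : ℝ)) * θ ^ D.card := by
    rw [Finset.prod_mul_distrib, Finset.prod_mul_distrib, Finset.prod_const, Finset.prod_const]
  rw [hsplit] at hprod
  have hbern : 1 + (D.card : ℝ) * (-(4 / (X : ℝ))) ≤ θ ^ D.card := by
    apply one_add_mul_le_pow
    linarith
  have hhalf : (1 / 2 : ℝ) ≤ 1 + (D.card : ℝ) * (-(4 / (X : ℝ))) := by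
    have h8' : 8 * (D.card : ℝ) ≤ X := by exact_mod_cast h8
    have : (D.card : ℝ) * (4 / (X : ℝ)) ≤ 1 / 2 := by
      rw [mul_div_assoc', div_le_iff₀ hXpos]
      linarith
    linarith
  have hP : 0 ≤ (5 / 9 : ℝ) ^ D.card * (∏ p ∈ D, (p : ℝ)) := by positivity
  calc (5 / 9 : ℝ) ^ D.card * (∏ p ∈ D, (p : ℝ)) / 2
      = (5 / 9 : ℝ) ^ D.card * (∏ p ∈ D, (p : ℝ)) * (1 / 2) := by ring
    _ ≤ (5 / 9 : ℝ) ^ D.card * (∏ p ∈ D, (p : ℝ)) * θ ^ D.card :=
        mul_le_mul_of_nonneg_left (hhalf.trans hbern) hP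
    _ ≤ _ := hprod

/-- The final numerical step. -/
lemma loss_step {N c W M τ β ε t : ℝ} {n : ℕ} (hN : 0 ≤ N) (hc : 0 ≤ c) (hτ0 : 0 ≤ τ)
    (hn : (n : ℝ) ≤ τ) (hτg : τ * log (9 / 5) = (2 * β + ε / 2) * t)
    (h1 : N * (5 / 9 : ℝ) ^ n / 18 ≤ c * W) (hW : W ≤ (2 * τ + 3) * exp (2 * β * t))
    (h3 : 18 * (2 * τ + 3) ≤ exp (ε / 2 * t)) (hM : M = exp (-(4 * β + ε) * t)) :
    N * M ≤ c := by
  have hg : 0 < log (9 / 5 : ℝ) := log_pos (by norm_num)
  have h59 : (5 / 9 : ℝ) ^ n = exp (-(n * log (9 / 5))) := by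
    have hl : log (5 / 9 : ℝ) = - log (9 / 5) := by
      rw [← Real.log_inv]
      norm_num
    calc (5 / 9 : ℝ) ^ n = exp (log (5 / 9)) ^ n := by
          rw [Real.exp_log (by norm_num : (0 : ℝ) < 5 / 9)]
      _ = exp (n * log (5 / 9)) := (Real.exp_nat_mul _ _).symm
      _ = _ := by
          rw [hl]
          ring_nf
  have hexp : exp (-((2 * β + ε / 2) * t)) ≤ (5 / 9 : ℝ) ^ n := by
    rw [h59]
    apply exp_le_exp.2
    rw [← hτg]
    have := mul_le_mul_of_nonneg_right hn hg.le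
    linarith
  have hK : (0 : ℝ) < 18 * (2 * τ + 3) := by positivity
  have hstep : N * exp (-((2 * β + ε / 2) * t)) / 18 ≤ c * ((2 * τ + 3) * exp (2 * β * t)) := by
    calc N * exp (-((2 * β + ε / 2) * t)) / 18 ≤ N * (5 / 9 : ℝ) ^ n / 18 := by
          apply div_le_div_of_nonneg_right _ (by norm_num)
          exact mul_le_mul_of_nonneg_left hexp hN
      _ ≤ c * W := h1
      _ ≤ _ := mul_le_mul_of_nonneg_left hW hc
  have hfac : exp (-(4 * β + ε) * t) * exp (ε / 2 * t) * exp (2 * β * t) =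
      exp (-((2 * β + ε / 2) * t)) := by
    rw [← exp_add, ← exp_add]
    congr 1
    ring
  have hE : 0 < exp (2 * β * t) := exp_pos _
  have hM0 : 0 ≤ M := by rw [hM]; exact (exp_pos _).le
  -- multiply through
  have hmain : N * M * (18 * (2 * τ + 3)) * exp (2 * β * t) ≤
      c * (18 * (2 * τ + 3)) * exp (2 * β * t) := by
    calc N * M * (18 * (2 * τ + 3)) * exp (2 * β * t)
        ≤ N * M * exp (ε / 2 * t) * exp (2 * β * t) := by
          apply mul_le_mul_of_nonneg_right _ hE.le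
          exact mul_le_mul_of_nonneg_left h3 (mul_nonneg hN hM0)
      _ = N * exp (-((2 * β + ε / 2) * t)) := by
          rw [← hfac, hM]
          ring
      _ ≤ 18 * (c * ((2 * τ + 3) * exp (2 * β * t))) := by linarith
      _ = _ := by ring
  have h4 := le_of_mul_le_mul_right hmain hE
  exact le_of_mul_le_mul_right h4 hK

/-- Bound for the weight. -/
lemma weight_bound {V τ c3 S n : ℝ} (h1 : c3 ^ 2 ≤ V ^ 2) (h2 : S ≤ n * V ^ 2) (hn : n ≤ τ)
    (h4 : 1 ≤ V ^ 2) : 2 * (c3 ^ 2 + S) + 1 ≤ (2 * τ + 3) * V ^ 2 := by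
  have h3 : n * V ^ 2 ≤ τ * V ^ 2 := mul_le_mul_of_nonneg_right hn (by positivity)
  have e : (2 * τ + 3) * V ^ 2 = 2 * (τ * V ^ 2) + 3 * V ^ 2 := by ring
  rw [e]
  linarith

/-- Lower bound for the product. -/
lemma low_bound {N c3 Pr T g : ℝ} (hN : N < 3 * (c3 * Pr)) (hg : 0 ≤ g) (hc3 : 0 ≤ c3)
    (hT : g * Pr / 2 ≤ T) : N * g / 18 ≤ (c3 / 3) * T := by
  have h2 : N * g ≤ 3 * (c3 * Pr) * g := mul_le_mul_of_nonneg_right hN.le hg
  have h1 : (c3 / 3) * (g * Pr / 2) ≤ (c3 / 3) * T :=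
    mul_le_mul_of_nonneg_left hT (by positivity)
  have e : (c3 / 3) * (g * Pr / 2) = (3 * (c3 * Pr) * g) / 18 := by ring
  rw [e] at h1
  refine le_trans ?_ h1
  exact div_le_div_of_nonneg_right h2 (by norm_num)

/-- Selection of the moduli. -/
theorem select_moduli {β γ t : ℝ} {N : ℕ} (hβ : 0 < β) (hγ : 0 < γ) (hγβ : γ < β)
    (ht : 0 < t) (hN : (N : ℝ) = exp (t ^ 2))
    (C1 : (exp (γ * t) + 2 + t / γ) * (β * t) + 2 * log 2 + β * t ≤ exp (β * t) * log 2)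
    (C4 : 8 * (t / γ) ≤ exp (γ * t))
    (C5 : 5 ≤ exp (γ * t)) :
    ∃ (D : Finset ℕ) (X a : ℕ), 5 ≤ X ∧ 8 * D.card ≤ X ∧ (D.card : ℝ) ≤ t / γ ∧
      (∀ p ∈ D, p.Prime ∧ X < p ∧ (p : ℝ) ≤ exp (β * t)) ∧
      3 ^ a * ∏ p ∈ D, p ≤ N ∧ N < 3 * (3 ^ a * ∏ p ∈ D, p) ∧ (3 : ℝ) ^ a ≤ exp (β * t) := by
  classical
  obtain ⟨V, hVdef⟩ : ∃ V : ℝ, V = exp (β * t) := ⟨_, rfl⟩
  have hVγ : exp (γ * t) ≤ V := by
    rw [hVdef]
    exact exp_le_exp.2 (mul_le_mul_of_nonneg_right hγβ.le ht.le)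
  have hV5 : 5 ≤ V := C5.trans hVγ
  obtain ⟨Y, hY1, hY2⟩ : ∃ Y : ℕ, (Y : ℝ) ≤ V ∧ V - 1 ≤ Y :=
    ⟨⌊V⌋₊, Nat.floor_le (by linarith), (Nat.sub_one_lt_floor V).le⟩
  obtain ⟨X, hX1, hX2⟩ : ∃ X : ℕ, exp (γ * t) ≤ X ∧ (X : ℝ) < exp (γ * t) + 1 :=
    ⟨⌈exp (γ * t)⌉₊, Nat.le_ceil _, Nat.ceil_lt_add_one (exp_pos _).le⟩
  have hX5 : 5 ≤ X := by
    have : (5 : ℝ) ≤ X := C5.trans hX1
    exact_mod_cast this
  have hY1' : 1 ≤ Y := by
    have : (1 : ℝ) ≤ Y := by linarith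
    exact_mod_cast this
  have hN1 : 1 ≤ N := by
    have : (1 : ℝ) ≤ N := by
      rw [hN]
      exact one_le_exp (by positivity)
    exact_mod_cast this
  set Q := (Finset.Ioc X Y).filter Nat.Prime with hQ
  have hlogV : log V = β * t := by rw [hVdef, log_exp]
  have hpi := pi_lower hY1 hY2 (by linarith) hY1'
  rw [hlogV] at hpi
  have hβt : 0 < β * t := by positivity
  have hpi2 : exp (γ * t) + 2 + t / γ ≤ (Nat.primeCounting Y : ℝ) := by
    have : (exp (γ * t) + 2 + t / γ) * (β * t) ≤ (Nat.primeCounting Y : ℝ) * (β * t) := by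
      rw [← hVdef] at C1
      linarith
    exact le_of_mul_le_mul_right this hβt
  have hcardQ : t / γ < (Q.card : ℝ) := by
    have h1 : (Nat.primeCounting Y : ℝ) ≤ (Q.card : ℝ) + X := by
      exact_mod_cast card_primes_Ioc X Y
    linarith
  have hbound : ∀ D ⊆ Q, ∏ p ∈ D, p ≤ N → (D.card : ℝ) ≤ t / γ := by
    intro D hD hprod
    have h1 : exp (γ * t) ^ D.card ≤ ∏ p ∈ D, (p : ℝ) := by
      rw [← Finset.prod_const]
      apply Finset.prod_le_prod (fun _ _ => (exp_pos _).le)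
      intro p hp
      have h2 := Finset.mem_Ioc.1 (Finset.mem_filter.1 (hD hp)).1
      have h3 : (X : ℝ) ≤ p := by exact_mod_cast h2.1.le
      linarith
    have h2 : (∏ p ∈ D, (p : ℝ)) ≤ N := by
      have : ((∏ p ∈ D, p : ℕ) : ℝ) ≤ N := by exact_mod_cast hprod
      push_cast at this
      exact this
    have h3 : exp (D.card * (γ * t)) ≤ exp (t ^ 2) := by
      rw [Real.exp_nat_mul, ← hN]
      exact h1.trans h2
    have h4 := exp_le_exp.1 h3
    rw [le_div_iff₀ hγ]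
    have : (D.card : ℝ) * γ * t ≤ t * t := by
      have e1 : (D.card : ℝ) * γ * t = D.card * (γ * t) := by ring
      have e2 : t * t = t ^ 2 := by ring
      rw [e1, e2]
      exact h4
    exact le_of_mul_le_mul_right this ht
  obtain ⟨D, hDQ, hDN, q, hqQ, hqN⟩ := exists_maximal hN1 Q hcardQ hbound
  have hDmem : ∀ p ∈ D, p.Prime ∧ X < p ∧ p ≤ Y := by
    intro p hp
    have h1 := Finset.mem_filter.1 (hDQ hp)
    have h2 := Finset.mem_Ioc.1 h1.1
    exact ⟨h1.2, h2.1, h2.2⟩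
  have hPpos : 0 < ∏ p ∈ D, p := Finset.prod_pos fun p hp => (hDmem p hp).1.pos
  obtain ⟨a, ha1, ha2, ha3⟩ := filler hPpos hDN hqN
  have hqY : q ≤ Y := (Finset.mem_Ioc.1 (Finset.mem_filter.1 hqQ).1).2
  have hDcard : (D.card : ℝ) ≤ t / γ := hbound D hDQ hDN
  refine ⟨D, X, a, hX5, ?_, hDcard, ?_, ha1, ha2, ?_⟩
  · have : (8 : ℝ) * D.card ≤ X := by linarith
    exact_mod_cast this
  · intro p hp
    obtain ⟨h1, h2, h3⟩ := hDmem p hp
    refine ⟨h1, h2, ?_⟩
    have h4 : (p : ℝ) ≤ Y := by exact_mod_cast h3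
    rw [← hVdef]
    exact h4.trans hY1
  · have : ((3 ^ a : ℕ) : ℝ) ≤ Y := by exact_mod_cast (ha3.le.trans hqY)
    push_cast at this
    rw [← hVdef]
    exact this.trans hY1

/-- The construction for a given real parameter `t`, where `N = exp (t ^ 2)`. -/
theorem param4 {β γ ε t : ℝ} {N : ℕ} (hβ : 0 < β) (hγ : 0 < γ) (hγβ : γ < β)
    (hgγ : log (9 / 5) / γ = 2 * β + ε / 2) (ht : 0 < t) (hN : (N : ℝ) = exp (t ^ 2))
    (C1 : (exp (γ * t) + 2 + t / γ) * (β * t) + 2 * log 2 + β * t ≤ exp (β * t) * log 2)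
    (C3 : 18 * (2 * (t / γ) + 3) ≤ exp (ε / 2 * t))
    (C4 : 8 * (t / γ) ≤ exp (γ * t))
    (C5 : 5 ≤ exp (γ * t)) :
    ∃ A : Finset ℕ, A ⊆ Finset.Icc 1 N ∧
      (∀ a d : ℕ, 0 < d → ¬ ∀ i : ℕ, i < 4 → a + i * d ∈ A) ∧
      (N : ℝ) * exp (-(4 * β + ε) * t) ≤ A.card := by
  obtain ⟨D, X, a, hX5, h8, hDcard, hDmem, ha1, ha2, h3a⟩ :=
    select_moduli hβ hγ hγβ ht hN C1 C4 C5
  have hτ0 : 0 ≤ t / γ := by positivity
  have hDprime : ∀ p ∈ D, p.Prime ∧ 3 < p := by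
    intro p hp
    obtain ⟨h1, h2, -⟩ := hDmem p hp
    exact ⟨h1, by omega⟩
  obtain ⟨A, hA, hAP, hcard⟩ := apply_master D a hDprime
  refine ⟨A, hA.trans (Finset.Icc_subset_Icc le_rfl ha1), hAP, ?_⟩
  have hpb := prod_bound D hX5 (fun p hp => (hDmem p hp).2.1) h8
  have h3a0 : (0 : ℝ) < (3 : ℝ) ^ a := by positivity
  have hNlt : (N : ℝ) < 3 * ((3 : ℝ) ^ a * ∏ p ∈ D, (p : ℝ)) := by
    have h : (N : ℝ) < ((3 * (3 ^ a * ∏ p ∈ D, p) : ℕ) : ℝ) := by exact_mod_cast ha2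
    push_cast at h
    exact h
  have hlow := low_bound hNlt (pow_nonneg (by norm_num : (0 : ℝ) ≤ 5 / 9) D.card) h3a0.le hpb
  obtain ⟨V, hVdef⟩ : ∃ V : ℝ, V = exp (β * t) := ⟨_, rfl⟩
  have hV1 : 1 ≤ V := by
    rw [hVdef]
    exact one_le_exp (by positivity)
  have hsumle : ∑ p ∈ D, (p : ℝ) ^ 2 ≤ D.card * V ^ 2 := by
    calc ∑ p ∈ D, (p : ℝ) ^ 2 ≤ ∑ _p ∈ D, V ^ 2 := by
          apply Finset.sum_le_sum
          intro p hp
          have h1 : (p : ℝ) ≤ V := by rw [hVdef]; exact (hDmem p hp).2.2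
          exact pow_le_pow_left₀ (Nat.cast_nonneg _) h1 2
      _ = D.card * V ^ 2 := by simp
  have hV2 : V ^ 2 = exp (2 * β * t) := by
    rw [hVdef, ← Real.exp_nat_mul]
    congr 1
    push_cast
    ring
  have hW : 2 * (((3 : ℝ) ^ a) ^ 2 + ∑ p ∈ D, (p : ℝ) ^ 2) + 1 ≤
      (2 * (t / γ) + 3) * exp (2 * β * t) := by
    rw [← hV2]
    refine weight_bound (pow_le_pow_left₀ h3a0.le (by rw [hVdef]; exact h3a) 2) hsumle hDcard ?_
    exact one_le_pow₀ hV1
  have hτg : (t / γ) * log (9 / 5) = (2 * β + ε / 2) * t := by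
    rw [← hgγ]
    field_simp
  exact loss_step (Nat.cast_nonneg _) (Nat.cast_nonneg _) hτ0 hDcard hτg (hlow.trans hcard) hW C3 rfl

/-- The asymptotic lower bound for sets without 4-term progressions. -/
theorem main4 (ε : ℝ) (hε : 0 < ε) : ∀ᶠ N : ℕ in atTop, ∃ A : Finset ℕ,
    A ⊆ Finset.Icc 1 N ∧ (∀ a d : ℕ, 0 < d → ¬ ∀ i : ℕ, i < 4 → a + i * d ∈ A) ∧
    (N : ℝ) * exp (-(2 * √(2 * log (9 / 5)) + ε) * √(log N)) ≤ A.card := by
  have hg : 0 < log (9 / 5 : ℝ) := log_pos (by norm_num)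
  have hL2 : 0 < log 2 := log_pos one_lt_two
  obtain ⟨β, hβdef⟩ : ∃ β : ℝ, β = √(2 * log (9 / 5)) / 2 := ⟨_, rfl⟩
  have hβ : 0 < β := by rw [hβdef]; positivity
  have hβ2 : 2 * β ^ 2 = log (9 / 5) := by
    have h := Real.sq_sqrt (by positivity : (0 : ℝ) ≤ 2 * log (9 / 5))
    rw [hβdef]
    nlinarith
  have h4β : 2 * √(2 * log (9 / 5)) = 4 * β := by rw [hβdef]; ring
  obtain ⟨γ, hγdef⟩ : ∃ γ : ℝ, γ = log (9 / 5) / (2 * β + ε / 2) := ⟨_, rfl⟩
  have hden : 0 < 2 * β + ε / 2 := by positivity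
  have hγ : 0 < γ := by rw [hγdef]; positivity
  have hgγ : log (9 / 5) / γ = 2 * β + ε / 2 := by
    rw [hγdef]
    field_simp
  have hγβ : γ < β := by
    rw [hγdef, div_lt_iff₀ hden]
    nlinarith
  have hev : ∀ᶠ t : ℝ in atTop, 0 < t ∧
      (exp (γ * t) + 2 + t / γ) * (β * t) + 2 * log 2 + β * t ≤ exp (β * t) * log 2 ∧
      18 * (2 * (t / γ) + 3) ≤ exp (ε / 2 * t) ∧ 8 * (t / γ) ≤ exp (γ * t) ∧
      5 ≤ exp (γ * t) := by
    have e0 := eventually_gt_atTop (0 : ℝ)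
    have e1 := ev_quad_le_exp 0 (2 * β / log 2) 0 (β - γ) (by linarith)
    have e2 := ev_quad_le_exp (2 / log 2 * (β / γ)) (2 / log 2 * (3 * β)) (2 / log 2 * (2 * log 2))
      β hβ
    have e3 := ev_quad_le_exp 0 (36 / γ) 54 (ε / 2) (by positivity)
    have e4 := ev_quad_le_exp 0 (8 / γ) 0 γ hγ
    have e5 := ev_quad_le_exp 0 0 5 γ hγ
    filter_upwards [e0, e1, e2, e3, e4, e5] with t h0 h1 h2 h3 h4 h5
    refine ⟨h0, ?_, ?_, ?_, ?_⟩
    · have hE : exp (β * t) = exp ((β - γ) * t) * exp (γ * t) := by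
        rw [← exp_add]
        congr 1
        ring
      have a1 : (2 * β / log 2) * t ≤ exp ((β - γ) * t) := by linarith
      have a2 : (β * t) * exp (γ * t) ≤ (log 2 / 2) * exp (β * t) := by
        rw [hE]
        have := mul_le_mul_of_nonneg_right a1 (exp_pos (γ * t)).le
        have hh : (log 2 / 2) * ((2 * β / log 2) * t * exp (γ * t)) = (β * t) * exp (γ * t) := by
          field_simp
        rw [← hh]
        have h2pos : 0 ≤ log 2 / 2 := by positivity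
        have := mul_le_mul_of_nonneg_left this h2pos
        linarith
      have a3 : (2 + t / γ) * (β * t) + 2 * log 2 + β * t ≤ (log 2 / 2) * exp (β * t) := by
        have hh : (log 2 / 2) * (2 / log 2 * (β / γ) * t ^ 2 + 2 / log 2 * (3 * β) * t +
            2 / log 2 * (2 * log 2)) = (2 + t / γ) * (β * t) + 2 * log 2 + β * t := by
          field_simp
          ring
        rw [← hh]
        exact mul_le_mul_of_nonneg_left h2 (by positivity)
      have : (exp (γ * t) + 2 + t / γ) * (β * t) =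
          (β * t) * exp (γ * t) + (2 + t / γ) * (β * t) := by ring
      rw [this]
      linarith
    · have : 18 * (2 * (t / γ) + 3) = 0 * t ^ 2 + 36 / γ * t + 54 := by
        field_simp
        ring
      rw [this]
      exact h3
    · have : 8 * (t / γ) = 0 * t ^ 2 + 8 / γ * t + 0 := by
        field_simp
        ring
      rw [this]
      exact h4
    · simpa using h5
  have htend : Tendsto (fun N : ℕ => √(log (N : ℝ))) atTop atTop :=
    tendsto_sqrt_atTop.comp (tendsto_log_atTop.comp tendsto_natCast_atTop_atTop)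
  filter_upwards [htend.eventually hev, eventually_ge_atTop 1] with N hN hN1
  obtain ⟨h0, h1, h2, h3, h4⟩ := hN
  have hlog : 0 ≤ log (N : ℝ) := log_nonneg (by exact_mod_cast hN1)
  have hNexp : (N : ℝ) = exp (√(log (N : ℝ)) ^ 2) := by
    rw [Real.sq_sqrt hlog, exp_log (by exact_mod_cast hN1)]
  rw [h4β]
  exact param4 hβ hγ hγβ hgγ h0 hNexp h1 h2 h3 h4

end Vale.Agent.Lib.P057
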