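import Mathlib

/-!
Digit sets for the four-term progression construction: even integers of size at most `B₀` and
odd integers of size at most `B₁`, modulo an odd number `M` with `3 B₀ < M` and `B₀ + 3 B₁ < M`.
-/

namespace Vale.Agent.Lib.P057

/-- The digit predicate: even with size at most `B₀`, or odd with size at most `B₁`. -/
def InY (B₀ B₁ x : ℤ) : Prop :=
  (x % 2 = 0 ∧ -B₀ ≤ x ∧ x ≤ B₀) ∨ (x % 2 = 1 ∧ -B₁ ≤ x ∧ x ≤ B₁)

set_option maxHeartbeats 4000000 in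
/-- The local lemma.  For four digits forming a progression modulo `M`, the parity count is
nonnegative, and if it vanishes then the digits form a genuine progression of integers. -/
theorem local_lemma (M B₀ B₁ x₀ x₁ x₂ x₃ : ℤ) (hodd : M % 2 = 1) (h1 : 3 * B₀ < M)
    (h2 : B₀ + 3 * B₁ < M) (hB : B₁ ≤ B₀) (hM : 0 < M)
    (h₀ : InY B₀ B₁ x₀) (h₁ : InY B₀ B₁ x₁) (h₂ : InY B₀ B₁ x₂) (h₃ : InY B₀ B₁ x₃)
    (d1 : M ∣ x₀ - 2 * x₁ + x₂) (d2 : M ∣ x₁ - 2 * x₂ + x₃) :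
    0 ≤ x₀ % 2 + x₃ % 2 - x₁ % 2 - x₂ % 2 ∧
      (x₀ % 2 + x₃ % 2 - x₁ % 2 - x₂ % 2 = 0 →
        x₀ - 2 * x₁ + x₂ = 0 ∧ x₁ - 2 * x₂ + x₃ = 0) := by
  obtain ⟨a, ha⟩ := d1
  obtain ⟨b, hb⟩ := d2
  have box : ∀ x, InY B₀ B₁ x → -B₀ ≤ x ∧ x ≤ B₀ := by
    intro x hx
    rcases hx with hx | hx <;> omega
  have b0 := box x₀ h₀
  have b1 := box x₁ h₁
  have b2 := box x₂ h₂
  have b3 := box x₃ h₃
  have ha1 : a ≤ 1 := by
    by_contra hc
    have : 2 ≤ a := by omega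
    nlinarith
  have ha2 : -1 ≤ a := by
    by_contra hc
    have : a ≤ -2 := by omega
    nlinarith
  have hb1 : b ≤ 1 := by
    by_contra hc
    have : 2 ≤ b := by omega
    nlinarith
  have hb2 : -1 ≤ b := by
    by_contra hc
    have : b ≤ -2 := by omega
    nlinarith
  unfold InY at h₀ h₁ h₂ h₃
  interval_cases a <;> interval_cases b <;>
    rcases h₀ with h₀ | h₀ <;> rcases h₁ with h₁ | h₁ <;>
    rcases h₂ with h₂ | h₂ <;> rcases h₃ with h₃ | h₃ <;> omega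

end Vale.Agent.Lib.P057
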