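import Mathlib
import Vale.Agent.Lib.P057.Local

/-!
Balanced digits and the counting step: a random shift keeps the proportion `5/9` of a finite set
inside the digit set.
-/

namespace Vale.Agent.Lib.P057

open Finset

/-- The balanced representative of `n` modulo `M`. -/
def bal (M n : ℤ) : ℤ := if 2 * (n % M) < M then n % M else n % M - M

lemma dvd_sub_bal (M n : ℤ) : M ∣ n - bal M n := by
  unfold bal
  split_ifs
  · exact Int.dvd_self_sub_emod
  · have h := @Int.dvd_self_sub_emod n M
    have : n - (n % M - M) = (n - n % M) + M := by ring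
    rw [this]
    exact dvd_add h (dvd_refl M)

lemma bal_bounds (M n : ℤ) (hM : 0 < M) : -M ≤ 2 * bal M n ∧ 2 * bal M n < M := by
  have h1 := Int.emod_nonneg n hM.ne'
  have h2 := Int.emod_lt_of_pos n hM
  unfold bal
  split_ifs <;> constructor <;> omega

lemma bal_eq_of_dvd (M n x : ℤ) (hM : 0 < M) (h : M ∣ n - x) (h1 : -M ≤ 2 * x) (h2 : 2 * x < M) :
    bal M n = x := by
  have hb := bal_bounds M n hM
  have hd : M ∣ bal M n - x := by
    have h3 := dvd_sub_bal M n
    have : bal M n - x = (n - x) - (n - bal M n) := by ring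
    rw [this]
    exact dvd_sub h h3
  have : bal M n - x = 0 := by
    apply Int.eq_zero_of_abs_lt_dvd hd
    rw [abs_lt]
    constructor <;> omega
  omega

/-- The digit set for the modulus `9 m` with `m` odd, as a finite set. -/
noncomputable def Ym (r : ℕ) : Finset ℤ :=
  (Icc (-(3 * (r : ℤ) + 1)) (3 * (r : ℤ) + 1)).image (fun j => 2 * j) ∪
    (Icc (-(2 * (r : ℤ) + 1)) (2 * (r : ℤ))).image (fun j => 2 * j + 1)

lemma mem_Ym (r : ℕ) (x : ℤ) :
    x ∈ Ym r ↔ InY (3 * (2 * (r : ℤ) + 1) - 1) (2 * (2 * (r : ℤ) + 1)) x := by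
  unfold Ym InY
  simp only [mem_union, mem_image, mem_Icc]
  constructor
  · rintro (⟨j, hj, rfl⟩ | ⟨j, hj, rfl⟩)
    · left; omega
    · right; omega
  · rintro (h | h)
    · left; exact ⟨x / 2, by omega, by omega⟩
    · right; exact ⟨x / 2, by omega, by omega⟩

lemma card_Ym (r : ℕ) : (Ym r).card = 5 * (2 * r + 1) := by
  unfold Ym
  rw [card_union_of_disjoint]
  · rw [card_image_of_injective, card_image_of_injective, Int.card_Icc, Int.card_Icc]
    · omega
    · intro a b h
      simp only at h
      omega
    · intro a b h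
      simp only at h
      omega
  · rw [disjoint_left]
    intro x hx hx'
    simp only [mem_image, mem_Icc] at hx hx'
    obtain ⟨a, _, rfl⟩ := hx
    obtain ⟨b, _, hb⟩ := hx'
    omega

lemma Ym_bound (r : ℕ) (x : ℤ) (hx : x ∈ Ym r) :
    -(9 * (2 * (r : ℤ) + 1)) ≤ 2 * x ∧ 2 * x < 9 * (2 * (r : ℤ) + 1) := by
  rw [mem_Ym] at hx
  unfold InY at hx
  omega

/-- For each `n`, at least `|Y|` shifts put `n` into the digit set. -/
lemma count_shifts (r : ℕ) (n : ℤ) :
    5 * (2 * r + 1) ≤ ((range (9 * (2 * r + 1))).filter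
      (fun t : ℕ => bal (9 * (2 * (r : ℤ) + 1)) (n + t) ∈ Ym r)).card := by
  rw [← card_Ym]
  set M : ℤ := 9 * (2 * (r : ℤ) + 1) with hM
  have hMpos : 0 < M := by positivity
  apply card_le_card_of_injOn (fun x => ((x - n) % M).toNat)
  · intro x hx
    have hx' : x ∈ Ym r := hx
    have h0 := Int.emod_nonneg (x - n) hMpos.ne'
    have h1 := Int.emod_lt_of_pos (x - n) hMpos
    have htoNat : ((((x - n) % M).toNat : ℕ) : ℤ) = (x - n) % M := Int.toNat_of_nonneg h0
    have hb := Ym_bound r x hx'
    simp only [coe_filter, mem_range, Set.mem_ofPred_eq]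
    constructor
    · have : (((x - n) % M).toNat : ℤ) < ((9 * (2 * r + 1) : ℕ) : ℤ) := by
        rw [htoNat]
        push_cast
        exact h1
      exact_mod_cast this
    · rw [htoNat]
      have : bal M (n + (x - n) % M) = x := by
        apply bal_eq_of_dvd M _ x hMpos
        · have h3 : M ∣ (x - n) - (x - n) % M := Int.dvd_self_sub_emod
          have : n + (x - n) % M - x = -((x - n) - (x - n) % M) := by ring
          rw [this]
          exact (dvd_neg).2 h3
        · exact hb.1
        · exact hb.2
      rw [this]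
      exact hx'
  · intro x hx y hy hxy
    have hx' : x ∈ Ym r := hx
    have hy' : y ∈ Ym r := hy
    simp only at hxy
    have h0 := Int.emod_nonneg (x - n) hMpos.ne'
    have h0' := Int.emod_nonneg (y - n) hMpos.ne'
    have e1 : (x - n) % M = (y - n) % M := by
      have := congrArg (fun a : ℕ => (a : ℤ)) hxy
      simp only [Int.toNat_of_nonneg h0, Int.toNat_of_nonneg h0'] at this
      exact this
    have hd : M ∣ (x - n) - (y - n) := Int.ModEq.dvd (show (y - n) ≡ (x - n) [ZMOD M] from e1.symm)
    have hxb := Ym_bound r x hx'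
    have hyb := Ym_bound r y hy'
    have : x - y = 0 := by
      apply Int.eq_zero_of_abs_lt_dvd (m := M)
      · have : x - y = (x - n) - (y - n) := by ring
        rw [this]; exact hd
      · rw [abs_lt]; constructor <;> omega
    omega

end Vale.Agent.Lib.P057
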