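import Mathlib
import Vale.Agent.Lib.P057.Digits

/-!
The combinatorial core: shifts, level sets, and the proof that a level set has no four-term
progression.
-/

namespace Vale.Agent.Lib.P057

open Finset

open scoped Classical in
lemma one_digit (A : Finset ℕ) (r : ℕ) : ∃ t : ℤ,
    A.card * 5 ≤ (A.filter (fun n : ℕ => bal (9 * (2 * (r : ℤ) + 1)) ((n : ℤ) + t) ∈ Ym r)).card * 9 := by
  by_contra hcon
  push Not at hcon
  set M := 9 * (2 * r + 1) with hM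
  have hMpos : 0 < M := by positivity
  have hsum : ∑ t ∈ range M, (A.filter (fun n : ℕ =>
        bal (9 * (2 * (r : ℤ) + 1)) ((n : ℤ) + ((t : ℕ) : ℤ)) ∈ Ym r)).card
      = ∑ n ∈ A, ((range M).filter (fun t : ℕ =>
        bal (9 * (2 * (r : ℤ) + 1)) ((n : ℤ) + ((t : ℕ) : ℤ)) ∈ Ym r)).card :=
    (sum_card_bipartiteAbove_eq_sum_card_bipartiteBelow
      (fun (n : ℕ) (t : ℕ) => bal (9 * (2 * (r : ℤ) + 1)) ((n : ℤ) + ((t : ℕ) : ℤ)) ∈ Ym r)).symm
  have hlow : A.card * (5 * (2 * r + 1)) ≤ ∑ n ∈ A, ((range M).filter (fun t : ℕ =>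
        bal (9 * (2 * (r : ℤ) + 1)) ((n : ℤ) + ((t : ℕ) : ℤ)) ∈ Ym r)).card := by
    have : ∑ n ∈ A, (5 * (2 * r + 1)) ≤ ∑ n ∈ A, ((range M).filter (fun t : ℕ =>
        bal (9 * (2 * (r : ℤ) + 1)) ((n : ℤ) + ((t : ℕ) : ℤ)) ∈ Ym r)).card := by
      apply sum_le_sum
      intro n _
      exact count_shifts r (n : ℤ)
    simpa using this
  have hup : ∑ t ∈ range M, (A.filter (fun n : ℕ =>
        bal (9 * (2 * (r : ℤ) + 1)) ((n : ℤ) + ((t : ℕ) : ℤ)) ∈ Ym r)).card * 9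
      < ∑ t ∈ range M, A.card * 5 := by
    apply sum_lt_sum_of_nonempty
    · exact ⟨0, mem_range.2 hMpos⟩
    · intro t _
      exact hcon (t : ℤ)
  rw [← sum_mul, hsum, sum_const, card_range, smul_eq_mul] at hup
  nlinarith

open scoped Classical in
lemma many_digits (A : Finset ℕ) (r : ℕ → ℕ) (d : ℕ) : ∃ t : ℕ → ℤ,
    A.card * 5 ^ d ≤ (A.filter (fun n : ℕ => ∀ i < d,
      bal (9 * (2 * (r i : ℤ) + 1)) ((n : ℤ) + t i) ∈ Ym (r i))).card * 9 ^ d := by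
  induction d with
  | zero =>
    refine ⟨fun _ => 0, ?_⟩
    simp
  | succ d ih =>
    obtain ⟨t, ht⟩ := ih
    obtain ⟨t', ht'⟩ := one_digit (A.filter (fun n : ℕ => ∀ i < d,
      bal (9 * (2 * (r i : ℤ) + 1)) ((n : ℤ) + t i) ∈ Ym (r i))) (r d)
    refine ⟨fun i => if i = d then t' else t i, ?_⟩
    have hfil : (A.filter (fun n : ℕ => ∀ i < d + 1,
        bal (9 * (2 * (r i : ℤ) + 1)) ((n : ℤ) + (if i = d then t' else t i)) ∈ Ym (r i)))
        = ((A.filter (fun n : ℕ => ∀ i < d,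
          bal (9 * (2 * (r i : ℤ) + 1)) ((n : ℤ) + t i) ∈ Ym (r i))).filter
          (fun n : ℕ => bal (9 * (2 * (r d : ℤ) + 1)) ((n : ℤ) + t') ∈ Ym (r d))) := by
      ext n
      simp only [mem_filter]
      constructor
      · rintro ⟨hA, h⟩
        refine ⟨⟨hA, ?_⟩, ?_⟩
        · intro i hi
          have := h i (by omega)
          rwa [if_neg (by omega)] at this
        · have := h d (by omega)
          rwa [if_pos rfl] at this
      · rintro ⟨⟨hA, h⟩, h'⟩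
        refine ⟨hA, ?_⟩
        intro i hi
        by_cases hid : i = d
        · subst hid
          rw [if_pos rfl]
          exact h'
        · rw [if_neg hid]
          exact h i (by omega)
    rw [hfil]
    calc A.card * 5 ^ (d + 1) = (A.card * 5 ^ d) * 5 := by ring
      _ ≤ ((A.filter (fun n : ℕ => ∀ i < d,
          bal (9 * (2 * (r i : ℤ) + 1)) ((n : ℤ) + t i) ∈ Ym (r i))).card * 9 ^ d) * 5 :=
          Nat.mul_le_mul_right _ ht
      _ = ((A.filter (fun n : ℕ => ∀ i < d,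
          bal (9 * (2 * (r i : ℤ) + 1)) ((n : ℤ) + t i) ∈ Ym (r i))).card * 5) * 9 ^ d := by ring
      _ ≤ (((A.filter (fun n : ℕ => ∀ i < d,
          bal (9 * (2 * (r i : ℤ) + 1)) ((n : ℤ) + t i) ∈ Ym (r i))).filter
          (fun n : ℕ => bal (9 * (2 * (r d : ℤ) + 1)) ((n : ℤ) + t') ∈ Ym (r d))).card * 9) * 9 ^ d :=
          Nat.mul_le_mul_right _ ht'
      _ = _ := by ring

/-- A finite set has a fibre of relative size at least `1 / |F|`. -/
lemma fibre_large {α β : Type*} [DecidableEq β] (S : Finset α) (F : Finset β) (f : α → β)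
    (hf : ∀ a ∈ S, f a ∈ F) (hF : F.Nonempty) :
    ∃ c ∈ F, S.card ≤ (S.filter (fun a => f a = c)).card * F.card := by
  by_contra hcon
  push Not at hcon
  have h1 := card_eq_sum_card_fiberwise hf
  have h2 : ∑ c ∈ F, (S.filter (fun a => f a = c)).card * F.card < ∑ _c ∈ F, S.card :=
    sum_lt_sum_of_nonempty hF hcon
  rw [← sum_mul, ← h1, sum_const, smul_eq_mul] at h2
  nlinarith

/-- No four-term progression in a level set. -/
lemma no_progression (N d r₀ : ℕ) (t : ℕ → ℤ) (c₁ c₂ : ℤ)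
    (hlcm : N ≤ (range d).lcm (fun i => 2 * (r₀ + i) + 1))
    (A : Finset ℕ) (hA : A ⊆ Icc 1 N)
    (hdig : ∀ n ∈ A, ∀ i < d,
      bal (9 * (2 * ((r₀ + i : ℕ) : ℤ) + 1)) ((n : ℤ) + t i) ∈ Ym (r₀ + i))
    (hc₁ : ∀ n ∈ A, ∑ i ∈ range d, bal (9 * (2 * ((r₀ + i : ℕ) : ℤ) + 1)) ((n : ℤ) + t i) % 2 = c₁)
    (hc₂ : ∀ n ∈ A, ∑ i ∈ range d, bal (9 * (2 * ((r₀ + i : ℕ) : ℤ) + 1)) ((n : ℤ) + t i) ^ 2 = c₂)
    (a e : ℕ) (he : 0 < e) (h0 : a ∈ A) (h1 : a + e ∈ A) (h2 : a + 2 * e ∈ A)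
    (h3 : a + 3 * e ∈ A) : False := by
  set x : ℕ → ℕ → ℤ := fun n i => bal (9 * (2 * ((r₀ + i : ℕ) : ℤ) + 1)) ((n : ℤ) + t i) with hx
  have hdvd : ∀ n i : ℕ, (9 * (2 * ((r₀ + i : ℕ) : ℤ) + 1)) ∣ ((n : ℤ) + t i) - x n i := fun n i =>
    dvd_sub_bal _ _
  -- the local lemma in each coordinate
  have hloc : ∀ i ∈ range d,
      0 ≤ x a i % 2 + x (a + 3 * e) i % 2 - x (a + e) i % 2 - x (a + 2 * e) i % 2 ∧
      (x a i % 2 + x (a + 3 * e) i % 2 - x (a + e) i % 2 - x (a + 2 * e) i % 2 = 0 →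
        x a i - 2 * x (a + e) i + x (a + 2 * e) i = 0 ∧
        x (a + e) i - 2 * x (a + 2 * e) i + x (a + 3 * e) i = 0) := by
    intro i hi
    have hi' : i < d := mem_range.1 hi
    set m : ℤ := 2 * ((r₀ + i : ℕ) : ℤ) + 1 with hm
    have hmpos : 0 < m := by positivity
    have hY := fun n (hn : n ∈ A) => (mem_Ym (r₀ + i) _).1 (hdig n hn i hi')
    obtain ⟨u0, hu0⟩ := hdvd a i
    obtain ⟨u1, hu1⟩ := hdvd (a + e) i
    obtain ⟨u2, hu2⟩ := hdvd (a + 2 * e) i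
    obtain ⟨u3, hu3⟩ := hdvd (a + 3 * e) i
    push_cast at hu0 hu1 hu2 hu3
    apply local_lemma (9 * m) (3 * m - 1) (2 * m)
    · omega
    · omega
    · omega
    · omega
    · omega
    · exact hY a h0
    · exact hY _ h1
    · exact hY _ h2
    · exact hY _ h3
    · refine ⟨-u0 + 2 * u1 - u2, ?_⟩
      rw [hm]
      push_cast
      linear_combination -hu0 + 2 * hu1 - hu2
    · refine ⟨-u1 + 2 * u2 - u3, ?_⟩
      rw [hm]
      push_cast
      linear_combination -hu1 + 2 * hu2 - hu3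
  -- the parity counts vanish coordinatewise
  have hPsum : ∑ i ∈ range d,
      (x a i % 2 + x (a + 3 * e) i % 2 - x (a + e) i % 2 - x (a + 2 * e) i % 2) = 0 := by
    simp only [sum_sub_distrib, sum_add_distrib]
    rw [hc₁ a h0, hc₁ _ h1, hc₁ _ h2, hc₁ _ h3]
    ring
  have hP0 := (sum_eq_zero_iff_of_nonneg (fun i hi => (hloc i hi).1)).1 hPsum
  have hAP : ∀ i ∈ range d, x a i - 2 * x (a + e) i + x (a + 2 * e) i = 0 ∧
      x (a + e) i - 2 * x (a + 2 * e) i + x (a + 3 * e) i = 0 :=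
    fun i hi => (hloc i hi).2 (hP0 i hi)
  -- the squares then vanish coordinatewise
  have hQ : ∀ i ∈ range d,
      x a i ^ 2 + x (a + 3 * e) i ^ 2 - x (a + e) i ^ 2 - x (a + 2 * e) i ^ 2
        = 4 * (x (a + e) i - x a i) ^ 2 := by
    intro i hi
    obtain ⟨h5, h6⟩ := hAP i hi
    have e2 : x (a + 2 * e) i = 2 * x (a + e) i - x a i := by linarith
    have e3 : x (a + 3 * e) i = 3 * x (a + e) i - 2 * x a i := by linarith
    rw [e2, e3]
    ring
  have hQsum : ∑ i ∈ range d, (4 * (x (a + e) i - x a i) ^ 2) = 0 := by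
    rw [← sum_congr rfl hQ]
    simp only [sum_sub_distrib, sum_add_distrib]
    rw [hc₂ a h0, hc₂ _ h1, hc₂ _ h2, hc₂ _ h3]
    ring
  have hQ0 := (sum_eq_zero_iff_of_nonneg (fun i _ => by positivity)).1 hQsum
  -- hence every modulus divides the common difference
  have hdiv : ∀ i ∈ range d, 2 * (r₀ + i) + 1 ∣ e := by
    intro i hi
    have h4 := hQ0 i hi
    have h5 : x (a + e) i - x a i = 0 := by
      have : (x (a + e) i - x a i) ^ 2 = 0 := by linarith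
      exact pow_eq_zero_iff (by norm_num) |>.1 this
    obtain ⟨u0, hu0⟩ := hdvd a i
    obtain ⟨u1, hu1⟩ := hdvd (a + e) i
    push_cast at hu0 hu1
    have : ((2 * (r₀ + i) + 1 : ℕ) : ℤ) ∣ (e : ℤ) := by
      refine ⟨9 * (u1 - u0), ?_⟩
      push_cast
      have e6 : (e : ℤ) = (a + e + t i - x (a + e) i) - (a + t i - x a i) := by linarith
      rw [e6, hu0, hu1]
      ring
    exact_mod_cast this
  have hl : (range d).lcm (fun i => 2 * (r₀ + i) + 1) ∣ e := lcm_dvd hdiv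
  have hle := Nat.le_of_dvd he hl
  have hb0 := mem_Icc.1 (hA h0)
  have hb3 := mem_Icc.1 (hA h3)
  omega

open scoped Classical in
/-- The combinatorial core. -/
theorem core (N d r₀ : ℕ) (hlcm : N ≤ (range d).lcm (fun i => 2 * (r₀ + i) + 1)) :
    ∃ A : Finset ℕ, A ⊆ Icc 1 N ∧
      (∀ a e : ℕ, 0 < e → ¬ (a ∈ A ∧ a + e ∈ A ∧ a + 2 * e ∈ A ∧ a + 3 * e ∈ A)) ∧
      N * 5 ^ d ≤ A.card * 9 ^ d * ((d + 1) * (d * (3 * (2 * (r₀ + d) + 1)) ^ 2 + 1)) := by
  obtain ⟨t, ht⟩ := many_digits (Icc 1 N) (fun i => r₀ + i) d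
  set S := (Icc 1 N).filter (fun n : ℕ => ∀ i < d,
      bal (9 * (2 * ((r₀ + i : ℕ) : ℤ) + 1)) ((n : ℤ) + t i) ∈ Ym (r₀ + i)) with hS
  set R : ℤ := 3 * (2 * ((r₀ + d : ℕ) : ℤ) + 1) with hR
  set x : ℕ → ℕ → ℤ := fun n i => bal (9 * (2 * ((r₀ + i : ℕ) : ℤ) + 1)) ((n : ℤ) + t i) with hx
  set f : ℕ → ℤ × ℤ := fun n => (∑ i ∈ range d, x n i % 2, ∑ i ∈ range d, x n i ^ 2) with hf
  set F : Finset (ℤ × ℤ) := Icc (0 : ℤ) d ×ˢ Icc (0 : ℤ) (d * R ^ 2) with hF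
  have hbox : ∀ n ∈ S, ∀ i ∈ range d, 0 ≤ x n i % 2 ∧ x n i % 2 ≤ 1 ∧ x n i ^ 2 ≤ R ^ 2 := by
    intro n hn i hi
    have hi' := mem_range.1 hi
    have h1 := (mem_Ym (r₀ + i) _).1 ((mem_filter.1 hn).2 i hi')
    refine ⟨by omega, by omega, ?_⟩
    have h2 : -R ≤ x n i ∧ x n i ≤ R := by
      unfold InY at h1
      have : ((r₀ + i : ℕ) : ℤ) ≤ ((r₀ + d : ℕ) : ℤ) := by exact_mod_cast (by omega : r₀ + i ≤ r₀ + d)
      rw [hR]
      simp only [hx]
      omega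
    exact sq_le_sq' h2.1 h2.2
  have hmaps : ∀ n ∈ S, f n ∈ F := by
    intro n hn
    simp only [hf, hF, mem_product, mem_Icc]
    refine ⟨⟨sum_nonneg fun i hi => (hbox n hn i hi).1, ?_⟩,
      ⟨sum_nonneg fun i _ => by positivity, ?_⟩⟩
    · calc ∑ i ∈ range d, x n i % 2 ≤ ∑ _i ∈ range d, (1 : ℤ) :=
            sum_le_sum fun i hi => (hbox n hn i hi).2.1
        _ = d := by simp
    · calc ∑ i ∈ range d, x n i ^ 2 ≤ ∑ _i ∈ range d, R ^ 2 :=
            sum_le_sum fun i hi => (hbox n hn i hi).2.2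
        _ = d * R ^ 2 := by simp
  have hFne : F.Nonempty := by
    refine ⟨(0, 0), ?_⟩
    simp only [hF, mem_product, mem_Icc]
    refine ⟨⟨le_refl _, by positivity⟩, ⟨le_refl _, by positivity⟩⟩
  obtain ⟨c, _, hc⟩ := fibre_large S F f hmaps hFne
  refine ⟨S.filter (fun n => f n = c), ?_, ?_, ?_⟩
  · exact (filter_subset _ _).trans (filter_subset _ _)
  · rintro a e he ⟨h0, h1, h2, h3⟩
    refine no_progression N d r₀ t c.1 c.2 hlcm (S.filter (fun n => f n = c))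
      ((filter_subset _ _).trans (filter_subset _ _)) ?_ ?_ ?_ a e he h0 h1 h2 h3
    · intro n hn i hi
      exact (mem_filter.1 (mem_filter.1 hn).1).2 i hi
    · intro n hn
      have := (mem_filter.1 hn).2
      rw [← this]
    · intro n hn
      have := (mem_filter.1 hn).2
      rw [← this]
  · have hFcard : F.card = (d + 1) * (d * (3 * (2 * (r₀ + d) + 1)) ^ 2 + 1) := by
      rw [hF, card_product, Int.card_Icc, Int.card_Icc]
      have e1 : ((d : ℤ) + 1 - 0).toNat = d + 1 := by omega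
      have e2 : ((d : ℤ) * R ^ 2 + 1 - 0) = ((d * (3 * (2 * (r₀ + d) + 1)) ^ 2 + 1 : ℕ) : ℤ) := by
        rw [hR]; push_cast; ring
      rw [e1, e2, Int.toNat_natCast]
    rw [← hFcard]
    calc N * 5 ^ d = (Icc 1 N).card * 5 ^ d := by simp
      _ ≤ S.card * 9 ^ d := ht
      _ ≤ ((S.filter (fun n => f n = c)).card * F.card) * 9 ^ d := Nat.mul_le_mul_right _ hc
      _ = _ := by ring

end Vale.Agent.Lib.P057
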