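import Mathlib

/-!
A least common multiple bound: the product of `n + 1` consecutive terms of an arithmetic
progression with difference `2` divides `2 ^ n * n ! * lcm`.
-/

namespace Vale.Agent.Lib.P057

open Finset Nat

lemma prod_dvd_lcm (n : ℕ) : ∀ m : ℕ, (∏ i ∈ range (n + 1), (m + 2 * i)) ∣
    2 ^ n * n ! * (range (n + 1)).lcm (fun i => m + 2 * i) := by
  induction n with
  | zero =>
    intro m
    simp
  | succ n ih =>
    intro m
    set L := (range (n + 2)).lcm (fun i => m + 2 * i) with hL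
    set W := 2 ^ n * n ! * L with hW
    have h1 : (∏ i ∈ range (n + 1), (m + 2 * i)) ∣ W := by
      refine (ih m).trans (mul_dvd_mul_left _ ?_)
      exact Finset.lcm_mono (range_subset_range.2 (by omega))
    have h2 : (∏ i ∈ range (n + 1), ((m + 2) + 2 * i)) ∣ W := by
      refine (ih (m + 2)).trans (mul_dvd_mul_left _ ?_)
      apply Finset.lcm_dvd
      intro i hi
      have hi' := mem_range.1 hi
      have : (m + 2) + 2 * i = m + 2 * (i + 1) := by ring
      rw [this]
      exact Finset.dvd_lcm (f := fun i => m + 2 * i) (mem_range.2 (by omega))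
    set R := ∏ i ∈ range n, ((m + 2) + 2 * i) with hR
    have e1 : (∏ i ∈ range (n + 1), (m + 2 * i)) = R * m := by
      rw [prod_range_succ']
      simp only [Nat.mul_zero, Nat.add_zero]
      congr 1
      apply prod_congr rfl
      intro i _
      ring
    have e2 : (∏ i ∈ range (n + 1), ((m + 2) + 2 * i)) = R * (m + 2 + 2 * n) := by
      rw [prod_range_succ]
    have e3 : (∏ i ∈ range (n + 1 + 1), (m + 2 * i)) = R * m * (m + 2 + 2 * n) := by
      rw [prod_range_succ, e1]
      congr 1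
      ring
    rw [e3]
    rw [e1] at h1
    rw [e2] at h2
    have e4 : 2 ^ (n + 1) * (n + 1)! * (range (n + 1 + 1)).lcm (fun i => m + 2 * i)
        = 2 * (n + 1) * W := by
      rw [hW, hL, Nat.factorial_succ]
      ring
    rw [e4]
    have h3 : R * m * (m + 2 + 2 * n) ∣ (m + 2 + 2 * n) * W := by
      rw [mul_comm ((m + 2 + 2 * n)) W]
      exact mul_dvd_mul_right h1 _
    have h4 : R * m * (m + 2 + 2 * n) ∣ m * W := by
      have : R * m * (m + 2 + 2 * n) = m * (R * (m + 2 + 2 * n)) := by ring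
      rw [this]
      exact mul_dvd_mul_left _ h2
    have e5 : (m + 2 + 2 * n) * W = 2 * (n + 1) * W + m * W := by ring
    rw [e5] at h3
    exact (Nat.dvd_add_iff_left h4).2 h3

lemma le_lcm_of (N n r₀ : ℕ) (h : N * (2 ^ (n + 1) * (n + 1)!) ≤ (2 * r₀ + 1) ^ (n + 1)) :
    N ≤ (range (n + 1)).lcm (fun i => 2 * (r₀ + i) + 1) := by
  have hfun : (fun i => 2 * (r₀ + i) + 1) = (fun i => (2 * r₀ + 1) + 2 * i) := by
    funext i
    ring
  rw [hfun]
  set m := 2 * r₀ + 1 with hm
  set L := (range (n + 1)).lcm (fun i => m + 2 * i) with hL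
  have hLpos : 0 < L := by
    apply Nat.pos_of_ne_zero
    intro h0
    rw [hL, Finset.lcm_eq_zero_iff] at h0
    obtain ⟨i, _, hi⟩ := h0
    have hi' : m + 2 * i = 0 := hi
    omega
  have hd := prod_dvd_lcm n m
  have hle : (∏ i ∈ range (n + 1), (m + 2 * i)) ≤ 2 ^ n * n ! * L :=
    Nat.le_of_dvd (by positivity) hd
  have hpow : m ^ (n + 1) ≤ ∏ i ∈ range (n + 1), (m + 2 * i) := by
    calc m ^ (n + 1) = ∏ _i ∈ range (n + 1), m := by simp
      _ ≤ _ := prod_le_prod (fun _ _ => Nat.zero_le _) (fun i _ => by omega)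
  have h5 : N * (2 * (n + 1)) * (2 ^ n * n !) ≤ L * (2 ^ n * n !) := by
    calc N * (2 * (n + 1)) * (2 ^ n * n !) = N * (2 ^ (n + 1) * (n + 1)!) := by
          rw [Nat.factorial_succ]; ring
      _ ≤ m ^ (n + 1) := h
      _ ≤ _ := hpow
      _ ≤ 2 ^ n * n ! * L := hle
      _ = _ := by ring
  have h6 := Nat.le_of_mul_le_mul_right h5 (by positivity)
  calc N ≤ N * (2 * (n + 1)) := Nat.le_mul_of_pos_right _ (by positivity)
    _ ≤ L := h6

end Vale.Agent.Lib.P057
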