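import Mathlib
import Vale.Agent.Lib.P057.Core
import Vale.Agent.Lib.P057.Lcm

/-!
The choice of parameters: `k = ⌈α s⌉`, `d = ⌈β s⌉` with `s = √(log₂ N)`.
-/

namespace Vale.Agent.Lib.P057

open Filter

lemma ev_logb (B A c : ℝ) (hB : 0 < B) (hc : 0 < c) :
    ∀ᶠ s : ℝ in atTop, Real.logb 2 (B * s + A) ≤ c * s := by
  have hlog2 : 0 < Real.log 2 := Real.log_pos (by norm_num)
  have hc1 : 0 < c * Real.log 2 / (2 * B) := by positivity
  have h1 := Real.isLittleO_log_id_atTop.bound hc1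
  have htend : Tendsto (fun s : ℝ => B * s + A) atTop atTop :=
    tendsto_atTop_add_const_right _ _ (tendsto_id.const_mul_atTop hB)
  have h2 := htend.eventually h1
  filter_upwards [h2, eventually_ge_atTop (|A| / B + 1)] with s hs hs1
  have hBs : |A| + B ≤ B * s := by
    have : B * (|A| / B + 1) ≤ B * s := mul_le_mul_of_nonneg_left hs1 hB.le
    have e : B * (|A| / B + 1) = |A| + B := by field_simp
    linarith
  have hA1 := le_abs_self A
  have hA2 := neg_abs_le A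
  have hx : 0 < B * s + A := by linarith
  have hx2 : B * s + A ≤ 2 * (B * s) := by linarith
  simp only [id, Real.norm_eq_abs, abs_of_pos hx] at hs
  have hlog : Real.log (B * s + A) ≤ c * Real.log 2 / (2 * B) * (B * s + A) :=
    (le_abs_self _).trans hs
  have hlog' : Real.log (B * s + A) ≤ c * s * Real.log 2 := by
    calc Real.log (B * s + A) ≤ c * Real.log 2 / (2 * B) * (B * s + A) := hlog
      _ ≤ c * Real.log 2 / (2 * B) * (2 * (B * s)) := mul_le_mul_of_nonneg_left hx2 hc1.le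
      _ = c * s * Real.log 2 := by field_simp
  unfold Real.logb
  rw [div_le_iff₀ hlog2]
  exact hlog'

lemma param_eventually (α β ε' : ℝ) (hα : 0 < α) (hβ : 0 < β) (hαβ : 1 < α * β) (hε' : 0 < ε') :
    ∃ s₀ : ℝ, 0 < s₀ ∧ ∀ s, s₀ ≤ s →
      1 + Real.logb 2 (β * s + 1) ≤ (α - 1 / β) * s ∧
      Real.logb 2 (2 * β * s + 3) ≤ α * s ∧
      Real.logb 2 (9 / 5) + 6 + Real.logb 2 (β * s + 2) + Real.logb 2 (9 * β * s + 10) ≤ ε' * s := by
  have hτ : 0 < α - 1 / β := by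
    have : 1 / β < α := by
      rw [div_lt_iff₀ hβ]
      exact hαβ
    linarith
  have e1 := ev_logb β 1 ((α - 1 / β) / 2) hβ (by positivity)
  have e2 := ev_logb (2 * β) 3 α (by positivity) hα
  have e3 := ev_logb β 2 (ε' / 3) hβ (by positivity)
  have e4 := ev_logb (9 * β) 10 (ε' / 3) (by positivity) (by positivity)
  have e5 : ∀ᶠ s : ℝ in atTop, 1 ≤ (α - 1 / β) / 2 * s := by
    have : Tendsto (fun s : ℝ => (α - 1 / β) / 2 * s) atTop atTop :=
      tendsto_id.const_mul_atTop (by positivity)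
    exact this.eventually_ge_atTop 1
  have e6 : ∀ᶠ s : ℝ in atTop, Real.logb 2 (9 / 5) + 6 ≤ ε' / 3 * s := by
    have : Tendsto (fun s : ℝ => ε' / 3 * s) atTop atTop :=
      tendsto_id.const_mul_atTop (by positivity)
    exact this.eventually_ge_atTop _
  have e7 : ∀ᶠ s : ℝ in atTop, 1 ≤ s := eventually_ge_atTop 1
  obtain ⟨s₀, hs₀⟩ := eventually_atTop.1 (e1.and (e2.and (e3.and (e4.and (e5.and (e6.and e7))))))
  refine ⟨max s₀ 1, by positivity, ?_⟩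
  intro s hs
  obtain ⟨h1, h2, h3, h4, h5, h6, h7⟩ := hs₀ s ((le_max_left _ _).trans hs)
  refine ⟨?_, h2, ?_⟩
  · nlinarith
  · nlinarith

/-- Real form of the least common multiple hypothesis. -/
lemma lcm_hyp (N d k : ℕ) (hN : 0 < N) (hd : 0 < d) (s : ℝ)
    (hs : Real.logb 2 N = s ^ 2)
    (h : s ^ 2 + d + d * Real.logb 2 d ≤ k * d) :
    N * (2 ^ d * d.factorial) ≤ 2 ^ (k * d) := by
  have h2 : (0 : ℝ) < 2 := by norm_num
  have hNr : (0 : ℝ) < N := by exact_mod_cast hN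
  have hdr : (0 : ℝ) < d := by exact_mod_cast hd
  have e1 : (N : ℝ) = (2 : ℝ) ^ (s ^ 2) := by
    rw [← hs, Real.rpow_logb h2 (by norm_num) hNr]
  have e2 : (d : ℝ) = (2 : ℝ) ^ (Real.logb 2 d) := by
    rw [Real.rpow_logb h2 (by norm_num) hdr]
  have h3 : ((d.factorial : ℕ) : ℝ) ≤ (d : ℝ) ^ d := by
    exact_mod_cast Nat.factorial_le_pow d
  have h4 : (d : ℝ) ^ d = (2 : ℝ) ^ (d * Real.logb 2 d) := by
    conv_lhs => rw [e2]
    rw [← Real.rpow_natCast, ← Real.rpow_mul h2.le]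
    congr 1
    ring
  have h5 : ((2 : ℝ) ^ d) = (2 : ℝ) ^ (d : ℝ) := (Real.rpow_natCast _ _).symm
  have h6 : ((2 : ℝ) ^ (k * d)) = (2 : ℝ) ^ ((k : ℝ) * d) := by
    rw [← Real.rpow_natCast]
    push_cast
    rfl
  have key : (N : ℝ) * (2 ^ d * (d.factorial : ℝ)) ≤ 2 ^ (k * d) := by
    calc (N : ℝ) * (2 ^ d * (d.factorial : ℝ)) ≤ (N : ℝ) * (2 ^ d * (d : ℝ) ^ d) := by
          gcongr
      _ = (2 : ℝ) ^ (s ^ 2 + d + d * Real.logb 2 d) := by
          rw [h4, h5, e1, Real.rpow_add h2, Real.rpow_add h2]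
          ring
      _ ≤ (2 : ℝ) ^ ((k : ℝ) * d) :=
          Real.rpow_le_rpow_of_exponent_le (by norm_num) h
      _ = 2 ^ (k * d) := h6.symm
  exact_mod_cast key

/-- Step from the parameter inequalities to the least common multiple hypothesis. -/
lemma lcm_param (N : ℕ) (α β s : ℝ) (hN : 0 < N) (hα : 0 < α) (hβ : 0 < β) (hs0 : 0 < s)
    (hs : Real.logb 2 N = s ^ 2)
    (h1 : 1 + Real.logb 2 (β * s + 1) ≤ (α - 1 / β) * s) :
    N * (2 ^ ⌈β * s⌉₊ * (⌈β * s⌉₊).factorial) ≤ 2 ^ (⌈α * s⌉₊ * ⌈β * s⌉₊) := by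
  set d := ⌈β * s⌉₊ with hd
  set k := ⌈α * s⌉₊ with hk
  have hβs : 0 < β * s := by positivity
  have hαs : 0 < α * s := by positivity
  have hd1 : β * s ≤ d := Nat.le_ceil _
  have hd2 : (d : ℝ) < β * s + 1 := Nat.ceil_lt_add_one hβs.le
  have hk1 : α * s ≤ k := Nat.le_ceil _
  have hdpos : 0 < d := Nat.ceil_pos.2 hβs
  have hdr : (0 : ℝ) < d := by exact_mod_cast hdpos
  apply lcm_hyp N d k hN hdpos s hs
  have hlog : Real.logb 2 d ≤ Real.logb 2 (β * s + 1) :=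
    Real.logb_le_logb_of_le (by norm_num) hdr hd2.le
  have h2 : 1 + Real.logb 2 d ≤ (α - 1 / β) * s := by linarith
  have h3 : s ^ 2 ≤ d * (s / β) := by
    have : s ^ 2 = (β * s) * (s / β) := by field_simp
    rw [this]
    exact mul_le_mul_of_nonneg_right hd1 (by positivity)
  have h4 : (d : ℝ) * (1 + Real.logb 2 d) ≤ d * ((α - 1 / β) * s) :=
    mul_le_mul_of_nonneg_left h2 hdr.le
  have h5 : (α * s) * d ≤ k * d := mul_le_mul_of_nonneg_right hk1 hdr.le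
  have e : (d : ℝ) * ((α - 1 / β) * s) = (α * s) * d - d * (s / β) := by
    field_simp
  nlinarith

/-- The density bound coming from the parameter choice. -/
lemma density_param (α β ε' s : ℝ) (hα : 0 < α) (hβ : 0 < β) (hs0 : 0 < s)
    (h2 : Real.logb 2 (2 * β * s + 3) ≤ α * s)
    (h3 : Real.logb 2 (9 / 5) + 6 + Real.logb 2 (β * s + 2) + Real.logb 2 (9 * β * s + 10) ≤ ε' * s) :
    ((9 : ℝ) / 5) ^ ⌈β * s⌉₊ * ((⌈β * s⌉₊ + 1) *
      (⌈β * s⌉₊ * (3 * (2 * (2 ^ ⌈α * s⌉₊ + ⌈β * s⌉₊) + 1)) ^ 2 + 1))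
      ≤ (2 : ℝ) ^ ((Real.logb 2 (9 / 5) * β + 2 * α + ε') * s) := by
  set d := ⌈β * s⌉₊ with hd
  set k := ⌈α * s⌉₊ with hk
  set a' := Real.logb 2 (9 / 5) with ha'
  have two : (0 : ℝ) < 2 := by norm_num
  have hβs : 0 < β * s := by positivity
  have hαs : 0 < α * s := by positivity
  have hd1 : β * s ≤ d := Nat.le_ceil _
  have hd2 : (d : ℝ) < β * s + 1 := Nat.ceil_lt_add_one hβs.le
  have hk1 : α * s ≤ k := Nat.le_ceil _
  have hk2 : (k : ℝ) < α * s + 1 := Nat.ceil_lt_add_one hαs.le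
  have hdr : (0 : ℝ) ≤ d := Nat.cast_nonneg _
  have ha'pos : 0 < a' := Real.logb_pos (by norm_num) (by norm_num)
  -- first factor
  have f1 : ((9 : ℝ) / 5) ^ d ≤ (2 : ℝ) ^ (a' * (β * s + 1)) := by
    have e : ((9 : ℝ) / 5) = (2 : ℝ) ^ a' := by
      rw [ha', Real.rpow_logb two (by norm_num) (by norm_num)]
    rw [e, ← Real.rpow_natCast, ← Real.rpow_mul two.le]
    apply Real.rpow_le_rpow_of_exponent_le (by norm_num)
    exact mul_le_mul_of_nonneg_left hd2.le ha'pos.le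
  -- second factor
  have f2 : (d : ℝ) + 1 ≤ (2 : ℝ) ^ Real.logb 2 (β * s + 2) := by
    rw [Real.rpow_logb two (by norm_num) (by positivity)]
    linarith
  -- the pivotal bound `2 d + 1 ≤ 2 ^ k`
  have f3 : 2 * (d : ℝ) + 1 ≤ 2 ^ k := by
    have e1 : 2 * (d : ℝ) + 1 ≤ 2 * β * s + 3 := by nlinarith
    have e2 : 2 * β * s + 3 ≤ (2 : ℝ) ^ (α * s) := by
      calc 2 * β * s + 3 = (2 : ℝ) ^ Real.logb 2 (2 * β * s + 3) := by
            rw [Real.rpow_logb two (by norm_num) (by positivity)]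
        _ ≤ _ := Real.rpow_le_rpow_of_exponent_le (by norm_num) h2
    have e3 : (2 : ℝ) ^ (α * s) ≤ 2 ^ k := by
      rw [← Real.rpow_natCast]
      exact Real.rpow_le_rpow_of_exponent_le (by norm_num) hk1
    linarith
  have f4 : (2 : ℝ) ^ (2 * k) * 16 ≤ (2 : ℝ) ^ (2 * (α * s) + 6) := by
    have : (2 : ℝ) ^ (2 * k) * 16 = (2 : ℝ) ^ ((2 : ℝ) * k + 4) := by
      rw [Real.rpow_add two, ← Real.rpow_natCast]
      push_cast
      norm_num
    rw [this]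
    apply Real.rpow_le_rpow_of_exponent_le (by norm_num)
    linarith
  have hk0 : (0 : ℝ) < 2 ^ k := by positivity
  have f5 : (3 * (2 * (2 ^ k + (d : ℝ)) + 1)) ^ 2 ≤ 9 * ((2 : ℝ) ^ (2 * k) * 16) := by
    have e1 : 2 * (2 ^ k + (d : ℝ)) + 1 ≤ 2 ^ k * 4 := by linarith
    have e2 : (0 : ℝ) ≤ 2 * (2 ^ k + (d : ℝ)) + 1 := by positivity
    have e3 : (2 * (2 ^ k + (d : ℝ)) + 1) ^ 2 ≤ (2 ^ k * 4) ^ 2 := by gcongr
    have e4 : ((2 : ℝ) ^ k * 4) ^ 2 = (2 : ℝ) ^ (2 * k) * 16 := by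
      rw [mul_pow, ← pow_mul, mul_comm k 2]
      norm_num
    rw [e4] at e3
    calc (3 * (2 * (2 ^ k + (d : ℝ)) + 1)) ^ 2 = 9 * (2 * (2 ^ k + (d : ℝ)) + 1) ^ 2 := by ring
      _ ≤ _ := by linarith
  -- third factor
  have f6 : (d : ℝ) * (3 * (2 * (2 ^ k + (d : ℝ)) + 1)) ^ 2 + 1
      ≤ (9 * β * s + 10) * (2 : ℝ) ^ (2 * (α * s) + 6) := by
    have hP : (1 : ℝ) ≤ (2 : ℝ) ^ (2 * (α * s) + 6) :=
      Real.one_le_rpow (by norm_num) (by positivity)
    have e1 : (d : ℝ) * (3 * (2 * (2 ^ k + (d : ℝ)) + 1)) ^ 2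
        ≤ d * (9 * (2 : ℝ) ^ (2 * (α * s) + 6)) := by
      apply mul_le_mul_of_nonneg_left _ hdr
      linarith
    have e2 : (9 * (d : ℝ) + 1) ≤ 9 * β * s + 10 := by nlinarith
    nlinarith
  have f7 : (9 * β * s + 10) = (2 : ℝ) ^ Real.logb 2 (9 * β * s + 10) := by
    rw [Real.rpow_logb two (by norm_num) (by positivity)]
  calc ((9 : ℝ) / 5) ^ d * (((d : ℝ) + 1) *
        ((d : ℝ) * (3 * (2 * (2 ^ k + (d : ℝ)) + 1)) ^ 2 + 1))
      ≤ (2 : ℝ) ^ (a' * (β * s + 1)) * ((2 : ℝ) ^ Real.logb 2 (β * s + 2) *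
          ((2 : ℝ) ^ Real.logb 2 (9 * β * s + 10) * (2 : ℝ) ^ (2 * (α * s) + 6))) := by
        rw [← f7]
        gcongr
    _ = (2 : ℝ) ^ (a' * (β * s + 1) + (Real.logb 2 (β * s + 2) +
          (Real.logb 2 (9 * β * s + 10) + (2 * (α * s) + 6)))) := by
        rw [Real.rpow_add two (a' * (β * s + 1)), Real.rpow_add two (Real.logb 2 (β * s + 2)),
          Real.rpow_add two (Real.logb 2 (9 * β * s + 10))]
    _ ≤ _ := by
        apply Real.rpow_le_rpow_of_exponent_le (by norm_num)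
        nlinarith

end Vale.Agent.Lib.P057
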