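import Mathlib
import Vale.Agent.Lib.P057.Params

/-!
The lower bound for sets without four-term progressions.
-/

namespace Vale.Agent.Lib.P057

open Finset

theorem main (ε : ℝ) (hε : 0 < ε) :
    ∃ N₀ : ℕ, ∀ N : ℕ, N₀ ≤ N → ∃ A : Finset ℕ, A ⊆ Finset.Icc 1 N ∧
      (∀ a d : ℕ, 0 < d → ¬ (a ∈ A ∧ a + d ∈ A ∧ a + 2 * d ∈ A ∧ a + 3 * d ∈ A)) ∧
      (N : ℝ) * (2 : ℝ) ^ (-((2 * √(2 * Real.logb 2 (9 / 5)) + ε) * √(Real.logb 2 N))) ≤ A.card := by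
  have two : (0 : ℝ) < 2 := by norm_num
  set a' := Real.logb 2 (9 / 5) with ha'
  have ha'pos : 0 < a' := Real.logb_pos (by norm_num) (by norm_num)
  set α := √(a' / 2) with hα
  have hαpos : 0 < α := Real.sqrt_pos.2 (by positivity)
  have hαsq : α ^ 2 = a' / 2 := Real.sq_sqrt (by positivity)
  have hC : 2 * √(2 * a') = 4 * α := by
    have : 2 * a' = (2 * α) ^ 2 := by
      rw [mul_pow, hαsq]
      ring
    rw [this, Real.sqrt_sq (by positivity)]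
    ring
  set η := ε / (4 * α) with hη
  have hηpos : 0 < η := by positivity
  set β := (1 + η) / α with hβ
  have hβpos : 0 < β := by positivity
  have hαβ : α * β = 1 + η := by
    rw [hβ]
    field_simp
  have hopt : a' * β + 2 * α + ε / 2 = 4 * α + ε := by
    have e1 : a' = 2 * α ^ 2 := by rw [hαsq]; ring
    have e2 : a' * β = 2 * α * (α * β) := by rw [e1]; ring
    rw [e2, hαβ, hη]
    field_simp
    ring
  obtain ⟨s₀, hs₀pos, hs₀⟩ := param_eventually α β (ε / 2) hαpos hβpos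
    (by rw [hαβ]; linarith) (by positivity)
  refine ⟨max ⌈(2 : ℝ) ^ (s₀ ^ 2)⌉₊ 2, ?_⟩
  intro N hN
  have hN1 : ⌈(2 : ℝ) ^ (s₀ ^ 2)⌉₊ ≤ N := (le_max_left _ _).trans hN
  have hN2 : 2 ≤ N := (le_max_right _ _).trans hN
  have hNpos : 0 < N := by omega
  have hNr : (0 : ℝ) < N := by exact_mod_cast hNpos
  have hN3 : (2 : ℝ) ^ (s₀ ^ 2) ≤ N := (Nat.le_ceil _).trans (by exact_mod_cast hN1)
  have hlogN : s₀ ^ 2 ≤ Real.logb 2 N := by
    rw [Real.le_logb_iff_rpow_le (by norm_num) hNr]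
    exact hN3
  set s := √(Real.logb 2 N) with hs
  have hlog0 : 0 ≤ Real.logb 2 N := le_trans (by positivity) hlogN
  have hsq : Real.logb 2 N = s ^ 2 := (Real.sq_sqrt hlog0).symm
  have hss₀ : s₀ ≤ s := Real.le_sqrt_of_sq_le hlogN
  have hspos : 0 < s := lt_of_lt_of_le hs₀pos hss₀
  obtain ⟨h1, h2, h3⟩ := hs₀ s hss₀
  have hL := lcm_param N α β s hNpos hαpos hβpos hspos hsq h1
  have hD := density_param α β (ε / 2) s hαpos hβpos hspos h2 h3
  set d := ⌈β * s⌉₊ with hd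
  set k := ⌈α * s⌉₊ with hk
  have hdpos : 0 < d := Nat.ceil_pos.2 (by positivity)
  obtain ⟨n, hn⟩ : ∃ n, d = n + 1 := ⟨d - 1, by omega⟩
  have hlcm : N ≤ (range d).lcm (fun i => 2 * (2 ^ k + i) + 1) := by
    rw [hn]
    apply le_lcm_of
    rw [← hn]
    calc N * (2 ^ d * d.factorial) ≤ 2 ^ (k * d) := hL
      _ = (2 ^ k) ^ d := by rw [pow_mul]
      _ ≤ (2 * 2 ^ k + 1) ^ d := by
          apply Nat.pow_le_pow_left
          omega
  obtain ⟨A, hA1, hA2, hA3⟩ := core N d (2 ^ k) hlcm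
  refine ⟨A, hA1, hA2, ?_⟩
  rw [hC]
  have hE : (4 * α + ε) * s = (a' * β + 2 * α + ε / 2) * s := by rw [hopt]
  rw [hE, Real.rpow_neg two.le]
  set E := (2 : ℝ) ^ ((a' * β + 2 * α + ε / 2) * s) with hE'
  have hEpos : 0 < E := by positivity
  rw [← div_eq_mul_inv, div_le_iff₀ hEpos]
  set Z : ℝ := ((d : ℝ) + 1) * ((d : ℝ) * (3 * (2 * (2 ^ k + (d : ℝ)) + 1)) ^ 2 + 1) with hZ
  have hcast : (N : ℝ) * 5 ^ d ≤ A.card * 9 ^ d * Z := by
    rw [hZ]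
    exact_mod_cast hA3
  have h5 : (0 : ℝ) < 5 ^ d := by positivity
  have e9 : (9 : ℝ) ^ d = (9 / 5) ^ d * 5 ^ d := by
    rw [← mul_pow]
    norm_num
  have h6 : (N : ℝ) * 5 ^ d ≤ (A.card * ((9 / 5) ^ d * Z)) * 5 ^ d := by
    calc (N : ℝ) * 5 ^ d ≤ A.card * 9 ^ d * Z := hcast
      _ = _ := by rw [e9]; ring
  have h7 := le_of_mul_le_mul_right h6 h5
  calc (N : ℝ) ≤ A.card * ((9 / 5) ^ d * Z) := h7
    _ ≤ A.card * E := by
      exact mul_le_mul_of_nonneg_left hD (Nat.cast_nonneg _)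

end Vale.Agent.Lib.P057
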